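import Mathlib

/-!
P079: the averaged difference quotients of a map on a box form a contraction.

`cube` is the product of the uniform probability measures on `[0,1]`. If `G` is continuous and
bounded on sequences and is Lipschitz on the unit box for the seminorm given by the vectors `w k`,
then the averaged face differences `faceAvg G k` are dominated, as coefficient combinations, by
the vectors `w k`.
-/

open Set Filter Topology MeasureTheory Function

namespace Vale.Agent.P079.Full

universe u

/-- The uniform probability measure on the unit interval, as a measure on the reals. -/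
noncomputable def unif : Measure ℝ := volume.restrict (Icc (0 : ℝ) 1)

instance isProbabilityMeasure_unif : IsProbabilityMeasure unif :=
  ⟨by simp [unif]⟩

/-- The product of countably many copies of `unif`. -/
noncomputable def cube : Measure (ℕ → ℝ) := Measure.infinitePi fun _ => unif

instance isProbabilityMeasure_cube : IsProbabilityMeasure cube := by unfold cube; infer_instance

theorem ae_unif : ∀ᵐ t ∂unif, t ∈ Icc (0 : ℝ) 1 := ae_restrict_mem measurableSet_Icc

theorem ae_cube : ∀ᵐ u ∂cube, ∀ k, u k ∈ Icc (0 : ℝ) 1 := by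
  refine ae_all_iff.2 fun k => ?_
  exact (measurePreserving_eval_infinitePi (fun _ : ℕ => unif) k).quasiMeasurePreserving.ae ae_unif

theorem measurePreserving_update (k : ℕ) :
    MeasurePreserving (fun p : ℝ × (ℕ → ℝ) => update p.2 k p.1) (unif.prod cube) cube := by
  have hm : Measurable (fun p : ℝ × (ℕ → ℝ) => update p.2 k p.1) :=
    (continuous_snd.update k continuous_fst).measurable
  refine ⟨hm, Measure.eq_infinitePi _ fun s t ht => ?_⟩
  rw [Measure.map_apply hm (.pi s.countable_toSet fun i _ => ht i)]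
  classical
  have hpre : (fun p : ℝ × (ℕ → ℝ) => update p.2 k p.1) ⁻¹' Set.pi s t =
      (if k ∈ s then t k else univ) ×ˢ Set.pi (s.erase k : Finset ℕ) t := by
    ext ⟨a, v⟩
    simp only [mem_preimage, Set.mem_pi, Finset.mem_coe, Finset.mem_erase, mem_prod]
    constructor
    · intro h
      refine ⟨?_, fun i hi => ?_⟩
      · split_ifs with hk
        · simpa using h k hk
        · trivial
      · simpa [update_of_ne hi.1] using h i hi.2
    · rintro ⟨h1, h2⟩ i hi
      rcases eq_or_ne i k with rfl | hik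
      · simpa [hi] using h1
      · simpa [update_of_ne hik] using h2 i ⟨hik, hi⟩
  rw [hpre, Measure.prod_prod]
  have hc : cube (Set.pi (s.erase k : Finset ℕ) t) = ∏ i ∈ s.erase k, unif (t i) :=
    Measure.infinitePi_pi _ fun i _ => ht i
  rw [hc]
  split_ifs with hk
  · rw [Finset.mul_prod_erase s (fun i => unif (t i)) hk]
  · rw [measure_univ, one_mul, Finset.erase_eq_of_notMem hk]

variable {X : Type u} [NormedAddCommGroup X] [NormedSpace ℝ X] [CompleteSpace X]

omit [NormedSpace ℝ X] [CompleteSpace X] in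
theorem integrable_of_continuous {G : (ℕ → ℝ) → X} (hG : Continuous G) {B : ℝ}
    (hB : ∀ u, ‖G u‖ ≤ B) : Integrable G cube :=
  Integrable.of_bound hG.aestronglyMeasurable B (Eventually.of_forall hB)

/-- The face difference of `G` in coordinate `k`, averaged over the cube. -/
noncomputable def faceAvg (G : (ℕ → ℝ) → X) (k : ℕ) : X :=
  ∫ u, (G (update u k 1) - G (update u k 0)) ∂cube

/-- One variable: the first order behaviour of the average of a difference along a small shift. -/
theorem shift_estimate_nonneg {g : ℝ → X} (hg : Continuous g) {C b : ℝ}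
    (hC : ∀ s ∈ Icc (0 : ℝ) 1, ∀ t ∈ Icc (0 : ℝ) 1, ‖g s - g t‖ ≤ C * |s - t|)
    (hb0 : 0 ≤ b) (hb1 : b ≤ 1) :
    ‖(∫ t in (0 : ℝ)..1, (g ((1 - b) * t + b) - g ((1 - b) * t))) - b • (g 1 - g 0)‖
      ≤ 3 * C * b ^ 2 := by
  have hC0 : 0 ≤ C := by
    have := (norm_nonneg _).trans (hC 1 (by simp) 0 (by simp))
    simpa using this
  set I := ∫ t in (0 : ℝ)..1, (g ((1 - b) * t + b) - g ((1 - b) * t)) with hI
  have ii : ∀ p q : ℝ, IntervalIntegrable g volume p q := fun p q => hg.intervalIntegrable p q
  have hInorm : ‖I‖ ≤ C * b := by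
    have h : ∀ t ∈ Set.uIoc (0 : ℝ) 1, ‖g ((1 - b) * t + b) - g ((1 - b) * t)‖ ≤ C * b := by
      intro t ht
      rw [uIoc_of_le zero_le_one] at ht
      refine (hC _ ⟨by nlinarith [ht.1, ht.2], by nlinarith [ht.1, ht.2]⟩ _
        ⟨by nlinarith [ht.1, ht.2], by nlinarith [ht.1, ht.2]⟩).trans ?_
      rw [add_sub_cancel_left, abs_of_nonneg hb0]
    simpa using intervalIntegral.norm_integral_le_of_norm_le_const h
  have hscale : (1 - b) • I = (∫ t in (1 - b)..1, g t) - ∫ t in (0 : ℝ)..b, g t := by
    have e1 : (1 - b) • (∫ t in (0 : ℝ)..1, g ((1 - b) * t + b)) = ∫ t in b..1, g t := by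
      rw [intervalIntegral.smul_integral_comp_mul_add]
      simp
    have e2 : (1 - b) • (∫ t in (0 : ℝ)..1, g ((1 - b) * t)) = ∫ t in (0 : ℝ)..(1 - b), g t := by
      rw [intervalIntegral.smul_integral_comp_mul_left]
      simp
    have e3 := intervalIntegral.integral_add_adjacent_intervals (ii 0 b) (ii b 1)
    have e4 := intervalIntegral.integral_add_adjacent_intervals (ii 0 (1 - b)) (ii (1 - b) 1)
    have i1 : IntervalIntegrable (fun t => g ((1 - b) * t + b)) volume 0 1 :=
      (hg.comp (by fun_prop : Continuous fun t : ℝ => (1 - b) * t + b)).intervalIntegrable 0 1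
    have i2 : IntervalIntegrable (fun t => g ((1 - b) * t)) volume 0 1 :=
      (hg.comp (by fun_prop : Continuous fun t : ℝ => (1 - b) * t)).intervalIntegrable 0 1
    rw [hI, intervalIntegral.integral_sub i1 i2, smul_sub, e1, e2]
    rw [← e4] at e3
    linear_combination (norm := abel) e3
  have htop : ‖(∫ t in (1 - b)..1, g t) - b • g 1‖ ≤ C * b * b := by
    have e : (∫ t in (1 - b)..1, g t) - b • g 1 = ∫ t in (1 - b)..1, (g t - g 1) := by
      rw [intervalIntegral.integral_sub (ii _ _) intervalIntegrable_const]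
      simp
    rw [e]
    have h : ∀ t ∈ Set.uIoc (1 - b) 1, ‖g t - g 1‖ ≤ C * b := by
      intro t ht
      rw [uIoc_of_le (by linarith)] at ht
      refine (hC t ⟨by linarith [ht.1], ht.2⟩ 1 (by simp)).trans ?_
      refine mul_le_mul_of_nonneg_left ?_ hC0
      rw [abs_le]; constructor <;> linarith [ht.1, ht.2]
    refine (intervalIntegral.norm_integral_le_of_norm_le_const h).trans ?_
    rw [sub_sub_cancel, abs_of_nonneg hb0]
  have hbot : ‖(∫ t in (0 : ℝ)..b, g t) - b • g 0‖ ≤ C * b * b := by
    have e : (∫ t in (0 : ℝ)..b, g t) - b • g 0 = ∫ t in (0 : ℝ)..b, (g t - g 0) := by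
      rw [intervalIntegral.integral_sub (ii _ _) intervalIntegrable_const]
      simp
    rw [e]
    have h : ∀ t ∈ Set.uIoc (0 : ℝ) b, ‖g t - g 0‖ ≤ C * b := by
      intro t ht
      rw [uIoc_of_le hb0] at ht
      refine (hC t ⟨by linarith [ht.1], by linarith [ht.2]⟩ 0 (by simp)).trans ?_
      refine mul_le_mul_of_nonneg_left ?_ hC0
      rw [abs_le]; constructor <;> linarith [ht.1, ht.2]
    refine (intervalIntegral.norm_integral_le_of_norm_le_const h).trans ?_
    rw [sub_zero, abs_of_nonneg hb0]
  have key : I - b • (g 1 - g 0) = b • I +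
      (((∫ t in (1 - b)..1, g t) - b • g 1) - ((∫ t in (0 : ℝ)..b, g t) - b • g 0)) := by
    rw [sub_sub_sub_comm, ← hscale, ← smul_sub]
    module
  rw [key]
  calc _ ≤ b * ‖I‖ + (C * b * b + C * b * b) := by
        refine (norm_add_le _ _).trans (add_le_add ?_ ((norm_sub_le _ _).trans
          (add_le_add htop hbot)))
        rw [norm_smul, Real.norm_of_nonneg hb0]
    _ ≤ 3 * C * b ^ 2 := by nlinarith [mul_le_mul_of_nonneg_left hInorm hb0]

/-- The image of `t` under the contraction towards the end selected by `o`. -/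
def squeeze (b o t : ℝ) : ℝ := (1 - |b|) * t + o

theorem shift_estimate {g : ℝ → X} (hg : Continuous g) {C b : ℝ}
    (hC : ∀ s ∈ Icc (0 : ℝ) 1, ∀ t ∈ Icc (0 : ℝ) 1, ‖g s - g t‖ ≤ C * |s - t|)
    (hb : |b| ≤ 1) :
    ‖(∫ t, (g (squeeze b (max b 0) t) - g (squeeze b (max (-b) 0) t)) ∂unif) - b • (g 1 - g 0)‖
      ≤ 3 * C * b ^ 2 := by
  have e : ∀ F : ℝ → X, ∫ t, F t ∂unif = ∫ t in (0 : ℝ)..1, F t := fun F => by
    rw [intervalIntegral.integral_of_le zero_le_one, unif, integral_Icc_eq_integral_Ioc]
  rw [e]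
  rcases le_total 0 b with h | h
  · have hb' : b ≤ 1 := (le_abs_self b).trans hb
    simpa [squeeze, abs_of_nonneg h, h] using shift_estimate_nonneg hg hC h hb'
  · have h' : 0 ≤ -b := by linarith
    have hb' : -b ≤ 1 := (neg_le_abs b).trans hb
    have := shift_estimate_nonneg hg hC h' hb'
    rw [← norm_neg, neg_sub', ← intervalIntegral.integral_neg, neg_sq, ← neg_smul] at this
    simpa [squeeze, abs_of_nonpos h, h] using this

variable {G : (ℕ → ℝ) → X} {w : ℕ → X}

/-- `G` is nonexpansive on the unit box for the seminorm spanned by `w`. -/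
def BoxLip (G : (ℕ → ℝ) → X) (w : ℕ → X) : Prop :=
  ∀ u v : ℕ → ℝ, (∀ k, u k ∈ Icc (0 : ℝ) 1) → (∀ k, v k ∈ Icc (0 : ℝ) 1) → ∀ N : ℕ,
    (∀ k, N ≤ k → u k = v k) → ‖G u - G v‖ ≤ ‖∑ k ∈ Finset.range N, (u k - v k) • w k‖

omit [CompleteSpace X] in
theorem BoxLip.single (hL : BoxLip G w) {u : ℕ → ℝ} (hu : ∀ k, u k ∈ Icc (0 : ℝ) 1) (j : ℕ)
    {s t : ℝ} (hs : s ∈ Icc (0 : ℝ) 1) (ht : t ∈ Icc (0 : ℝ) 1) :
    ‖G (update u j s) - G (update u j t)‖ ≤ ‖w j‖ * |s - t| := by
  have box : ∀ r ∈ Icc (0 : ℝ) 1, ∀ k, update u j r k ∈ Icc (0 : ℝ) 1 := fun r hr k => by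
    rcases eq_or_ne k j with rfl | h
    · simpa using hr
    · simpa [update_of_ne h] using hu k
  refine (hL _ _ (box s hs) (box t ht) (j + 1) fun k hk => ?_).trans (le_of_eq ?_)
  · rw [update_of_ne (by omega), update_of_ne (by omega)]
  · rw [Finset.sum_eq_single j (fun k _ hk => by simp [update_of_ne hk]) (by simp)]
    simp [norm_smul, mul_comm]

omit [CompleteSpace X] in
theorem BoxLip.apart (hL : BoxLip G w) {u v : ℕ → ℝ} (hu : ∀ k, u k ∈ Icc (0 : ℝ) 1)
    (hv : ∀ k, v k ∈ Icc (0 : ℝ) 1) (N : ℕ) (h : ∀ k, N ≤ k → u k = v k) {e : ℕ → ℝ}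
    (he : ∀ k < N, |u k - v k| ≤ e k) :
    ‖G u - G v‖ ≤ ∑ k ∈ Finset.range N, e k * ‖w k‖ := by
  refine (hL u v hu hv N h).trans ((norm_sum_le _ _).trans (Finset.sum_le_sum fun k hk => ?_))
  rw [norm_smul, Real.norm_eq_abs]
  exact mul_le_mul_of_nonneg_right (he k (Finset.mem_range.1 hk)) (norm_nonneg _)

/-- The partly shifted point: coordinates below `j` are shifted up, the others down. -/
def mixed (b : ℕ → ℝ) (N j : ℕ) (u : ℕ → ℝ) : ℕ → ℝ := fun k =>
  if k < N then squeeze (b k) (if k < j then max (b k) 0 else max (-b k) 0) (u k) else u k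

theorem squeeze_mem {b o t : ℝ} (hb : |b| ≤ 1) (ho : o ∈ Icc 0 |b|) (ht : t ∈ Icc (0 : ℝ) 1) :
    squeeze b o t ∈ Icc (0 : ℝ) 1 ∧ |squeeze b o t - t| ≤ |b| := by
  unfold squeeze
  have h1 := mul_nonneg (sub_nonneg.2 hb) ht.1
  have h2 := mul_le_mul_of_nonneg_left ht.2 (sub_nonneg.2 hb)
  refine ⟨⟨by linarith [ho.1], by linarith [ho.2]⟩, abs_le.2 ⟨?_, ?_⟩⟩ <;>
    nlinarith [ho.1, ho.2, ht.1, ht.2, abs_nonneg b]

theorem offset_mem (b : ℝ) (p : Prop) [Decidable p] :
    (if p then max b 0 else max (-b) 0) ∈ Icc 0 |b| := by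
  split_ifs
  · exact ⟨le_max_right _ _, max_le (le_abs_self b) (abs_nonneg b)⟩
  · exact ⟨le_max_right _ _, max_le (neg_le_abs b) (abs_nonneg b)⟩

theorem continuous_mixed (b : ℕ → ℝ) (N j : ℕ) : Continuous (mixed b N j) := by
  refine continuous_pi fun k => ?_
  unfold mixed squeeze
  split_ifs <;> fun_prop

/-- The averaged face differences are dominated by the edge vectors. -/
theorem norm_sum_faceAvg_le (hG : Continuous G) {B : ℝ} (hB : ∀ u, ‖G u‖ ≤ B) (hL : BoxLip G w)
    (N : ℕ) (c : ℕ → ℝ) :
    ‖∑ k ∈ Finset.range N, c k • faceAvg G k‖ ≤ ‖∑ k ∈ Finset.range N, c k • w k‖ := by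
  set M := ∑ k ∈ Finset.range N, |c k| * ‖w k‖ with hM
  have hM0 : 0 ≤ M := Finset.sum_nonneg fun k _ => by positivity
  set Q := ∑ k ∈ Finset.range N, (3 * ‖w k‖ * c k ^ 2 + |c k| * (2 * M)) with hQ
  have hQ0 : 0 ≤ Q := Finset.sum_nonneg fun k _ => by positivity
  set W := ‖∑ k ∈ Finset.range N, c k • w k‖ with hW
  suffices key : ∀ h : ℝ, 0 < h → (∀ k < N, |h * c k| ≤ 1) →
      ‖∑ k ∈ Finset.range N, c k • faceAvg G k‖ ≤ W + Q * h by
    refine le_of_forall_pos_le_add fun ε hε => ?_
    set R := 1 + Q / ε + ∑ k ∈ Finset.range N, |c k| with hR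
    have hR0 : 0 < R := by positivity
    refine (key (1 / R) (by positivity) fun k hk => ?_).trans (add_le_add le_rfl ?_)
    · rw [abs_mul, abs_of_pos (by positivity : (0 : ℝ) < 1 / R), one_div_mul_eq_div,
        div_le_one hR0, hR]
      have : |c k| ≤ ∑ k ∈ Finset.range N, |c k| :=
        Finset.single_le_sum (fun i _ => abs_nonneg (c i)) (Finset.mem_range.2 hk)
      have : (0 : ℝ) ≤ Q / ε := by positivity
      linarith
    · rw [mul_one_div, div_le_iff₀ hR0, hR]
      have h1 : ε * (Q / ε) = Q := by field_simp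
      have : 0 ≤ ∑ k ∈ Finset.range N, |c k| := Finset.sum_nonneg fun i _ => abs_nonneg (c i)
      nlinarith
  intro h hh hsmall
  set b : ℕ → ℝ := fun k => h * c k with hb
  have hmix : ∀ j, ∀ u : ℕ → ℝ, (∀ k, u k ∈ Icc (0 : ℝ) 1) →
      (∀ k, mixed b N j u k ∈ Icc (0 : ℝ) 1) ∧ ∀ k < N, |mixed b N j u k - u k| ≤ |b k| := by
    intro j u hu
    refine ⟨fun k => ?_, fun k hk => ?_⟩
    · unfold mixed; split_ifs with hk
      · exact (squeeze_mem (hsmall k hk) ⟨le_max_right _ _, max_le (le_abs_self _) (abs_nonneg _)⟩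
          (hu k)).1
      · exact (squeeze_mem (hsmall k hk) ⟨le_max_right _ _, max_le (neg_le_abs _) (abs_nonneg _)⟩
          (hu k)).1
      · exact hu k
    · unfold mixed; rw [if_pos hk]
      exact (squeeze_mem (hsmall k hk) (offset_mem _ _) (hu k)).2
  have hint : ∀ j, Integrable (fun u => G (mixed b N j u)) cube := fun j =>
    integrable_of_continuous (hG.comp (continuous_mixed b N j)) fun u => hB _
  have hface : ∀ j, Integrable (fun u => G (update u j 1) - G (update u j 0)) cube := fun j =>
    (integrable_of_continuous (hG.comp (continuous_id.update j continuous_const))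
      fun u => hB _).sub
      (integrable_of_continuous (hG.comp (continuous_id.update j continuous_const)) fun u => hB _)
  have step : ∀ j < N, ‖((∫ u, G (mixed b N (j + 1) u) ∂cube) - ∫ u, G (mixed b N j u) ∂cube) -
      b j • faceAvg G j‖ ≤ 3 * ‖w j‖ * b j ^ 2 + |b j| * (2 * (h * M)) := by
    intro j hj
    set D : (ℕ → ℝ) → ℝ → X := fun u t =>
      G (update (mixed b N j u) j (squeeze (b j) (max (b j) 0) t)) -
        G (update (mixed b N j u) j (squeeze (b j) (max (-b j) 0) t)) with hD
    have hsub : ∀ (u : ℕ → ℝ) (t : ℝ),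
        G (mixed b N (j + 1) (update u j t)) - G (mixed b N j (update u j t)) = D u t := by
      intro u t
      have e1 : mixed b N (j + 1) (update u j t) =
          update (mixed b N j u) j (squeeze (b j) (max (b j) 0) t) := by
        funext k
        rcases eq_or_ne k j with rfl | hk
        · simp [mixed, hj]
        · have : (k < j + 1) = (k < j) := by simp only [eq_iff_iff]; omega
          simp only [mixed, update_of_ne hk, this]
      have e2 : mixed b N j (update u j t) =
          update (mixed b N j u) j (squeeze (b j) (max (-b j) 0) t) := by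
        funext k
        rcases eq_or_ne k j with rfl | hk
        · simp [mixed, hj]
        · simp only [mixed, update_of_ne hk]
      rw [hD, e1, e2]
    have hc2 : Continuous (fun p : ℝ × (ℕ → ℝ) => D p.2 p.1) := by
      have := (hG.comp (((continuous_mixed b N j).comp continuous_snd).update j
        ((by unfold squeeze; fun_prop :
          Continuous (fun p : ℝ × (ℕ → ℝ) => squeeze (b j) (max (b j) 0) p.1))))).sub
        (hG.comp (((continuous_mixed b N j).comp continuous_snd).update j
        ((by unfold squeeze; fun_prop :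
          Continuous (fun p : ℝ × (ℕ → ℝ) => squeeze (b j) (max (-b j) 0) p.1)))))
      exact this
    have hi2 : Integrable (fun p : ℝ × (ℕ → ℝ) => D p.2 p.1) (unif.prod cube) :=
      Integrable.of_bound hc2.aestronglyMeasurable (B + B)
        (Eventually.of_forall fun p => (norm_sub_le _ _).trans (add_le_add (hB _) (hB _)))
    have hfub : ((∫ u, G (mixed b N (j + 1) u) ∂cube) - ∫ u, G (mixed b N j u) ∂cube) =
        ∫ u, (∫ t, D u t ∂unif) ∂cube := by
      rw [← integral_sub (hint _) (hint _)]
      set F := fun u => G (mixed b N (j + 1) u) - G (mixed b N j u) with hF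
      have hFc : Continuous F :=
        (hG.comp (continuous_mixed b N (j + 1))).sub (hG.comp (continuous_mixed b N j))
      have hmp := measurePreserving_update j
      calc ∫ u, F u ∂cube = ∫ u, F u ∂((unif.prod cube).map fun p => update p.2 j p.1) := by
            rw [hmp.map_eq]
        _ = ∫ p, F (update p.2 j p.1) ∂(unif.prod cube) :=
            integral_map hmp.measurable.aemeasurable hFc.aestronglyMeasurable
        _ = ∫ p, D p.2 p.1 ∂(unif.prod cube) := by
            simp only [hF, hsub]
        _ = _ := integral_prod_symm _ hi2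
    have i3 : Integrable (fun u => ∫ t, D u t ∂unif) cube := hi2.integral_prod_right
    have i4 : Integrable (fun u => b j • (G (update u j 1) - G (update u j 0))) cube :=
      (hface j).smul (b j)
    rw [hfub, faceAvg, ← integral_smul, ← integral_sub i3 i4]
    have bound : ∀ᵐ u ∂cube,
        ‖(∫ t, D u t ∂unif) - b j • (G (update u j 1) - G (update u j 0))‖ ≤
          3 * ‖w j‖ * b j ^ 2 + |b j| * (2 * (h * M)) := by
      filter_upwards [ae_cube] with u hu
      obtain ⟨hin, hdist⟩ := hmix j u hu
      have h1 : ‖(∫ t, D u t ∂unif) -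
          b j • (G (update (mixed b N j u) j 1) - G (update (mixed b N j u) j 0))‖ ≤
          3 * ‖w j‖ * b j ^ 2 :=
        shift_estimate (g := fun t => G (update (mixed b N j u) j t))
          (hG.comp (continuous_const.update j continuous_id))
          (fun s hs t ht => hL.single hin j hs ht) (hsmall j hj)
      have h2 : ∀ r ∈ Icc (0 : ℝ) 1,
          ‖G (update (mixed b N j u) j r) - G (update u j r)‖ ≤ h * M := by
        intro r hr
        have box : ∀ v : ℕ → ℝ, (∀ k, v k ∈ Icc (0 : ℝ) 1) → ∀ k, update v j r k ∈ Icc (0 : ℝ) 1 :=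
          fun v hv k => by
            rcases eq_or_ne k j with rfl | hk
            · simpa using hr
            · simpa [update_of_ne hk] using hv k
        refine (hL.apart (box _ hin) (box _ hu) N (fun k hk => ?_) (e := fun k => |b k|)
          (fun k hk => ?_)).trans (le_of_eq ?_)
        · rw [update_of_ne (by omega), update_of_ne (by omega), mixed, if_neg (by omega)]
        · rcases eq_or_ne k j with rfl | hkj
          · simp
          · simpa [update_of_ne hkj] using hdist k hk
        · rw [hM, Finset.mul_sum]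
          exact Finset.sum_congr rfl fun k _ => by
            simp only [hb, abs_mul, abs_of_pos hh, mul_assoc]
      calc _ = ‖((∫ t, D u t ∂unif) -
            b j • (G (update (mixed b N j u) j 1) - G (update (mixed b N j u) j 0))) +
            b j • ((G (update (mixed b N j u) j 1) - G (update u j 1)) -
              (G (update (mixed b N j u) j 0) - G (update u j 0)))‖ := by congr 1; module
        _ ≤ _ := by
            refine (norm_add_le _ _).trans (add_le_add h1 ?_)
            rw [norm_smul, Real.norm_eq_abs]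
            refine mul_le_mul_of_nonneg_left ((norm_sub_le _ _).trans ?_) (abs_nonneg _)
            linarith [h2 1 (by simp), h2 0 (by simp)]
    simpa using norm_integral_le_of_norm_le_const bound
  have hends : ‖(∫ u, G (mixed b N N u) ∂cube) - ∫ u, G (mixed b N 0 u) ∂cube‖ ≤ h * W := by
    rw [← integral_sub (hint _) (hint _)]
    have bound : ∀ᵐ u ∂cube, ‖G (mixed b N N u) - G (mixed b N 0 u)‖ ≤ h * W := by
      filter_upwards [ae_cube] with u hu
      refine (hL _ _ (hmix N u hu).1 (hmix 0 u hu).1 N (fun k hk => ?_)).trans (le_of_eq ?_)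
      · simp [mixed, not_lt.2 hk]
      · have hn : h * W = ‖h • ∑ k ∈ Finset.range N, c k • w k‖ := by
          rw [norm_smul, Real.norm_of_nonneg hh.le, hW]
        rw [hn, Finset.smul_sum]
        refine congrArg _ (Finset.sum_congr rfl fun k hk => ?_)
        rw [smul_smul]
        congr 1
        simp only [mixed, squeeze, Finset.mem_range.1 hk, if_true, Nat.not_lt_zero, if_false]
        have hd : max (b k) 0 - max (-b k) 0 = b k := by
          rcases le_total 0 (b k) with h | h <;> simp [h]
        calc _ = max (b k) 0 - max (-b k) 0 := by ring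
          _ = h * c k := hd
    simpa using norm_integral_le_of_norm_le_const bound
  have htel : ‖((∫ u, G (mixed b N N u) ∂cube) - ∫ u, G (mixed b N 0 u) ∂cube) -
      ∑ j ∈ Finset.range N, b j • faceAvg G j‖ ≤ h * h * Q := by
    rw [← Finset.sum_range_sub (fun j => ∫ u, G (mixed b N j u) ∂cube), ← Finset.sum_sub_distrib,
      hQ, Finset.mul_sum]
    refine (norm_sum_le _ _).trans (Finset.sum_le_sum fun j hj => ?_)
    refine (step j (Finset.mem_range.1 hj)).trans (le_of_eq ?_)
    simp only [hb, abs_mul, abs_of_pos hh]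
    ring
  have hsum : ∑ j ∈ Finset.range N, b j • faceAvg G j =
      h • ∑ j ∈ Finset.range N, c j • faceAvg G j := by
    rw [Finset.smul_sum]
    exact Finset.sum_congr rfl fun j _ => by simp [hb, smul_smul]
  have hfinal : h * ‖∑ j ∈ Finset.range N, c j • faceAvg G j‖ ≤ h * W + h * h * Q := by
    rw [← Real.norm_of_nonneg hh.le, ← norm_smul, ← hsum, Real.norm_of_nonneg hh.le]
    exact (norm_le_norm_add_norm_sub _ _).trans (add_le_add hends htel)
  refine le_of_mul_le_mul_left ?_ hh
  linarith

/-- A bound on all face differences of a functional passes to their average. -/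
theorem apply_faceAvg_mem (hG : Continuous G) {B : ℝ} (hB : ∀ u, ‖G u‖ ≤ B) (φ : X →L[ℝ] ℝ)
    (k : ℕ) {lo hi : ℝ}
    (h : ∀ u : ℕ → ℝ, (∀ i, u i ∈ Icc (0 : ℝ) 1) →
      φ (G (update u k 1) - G (update u k 0)) ∈ Icc lo hi) :
    φ (faceAvg G k) ∈ Icc lo hi := by
  have hi' : Integrable (fun u => G (update u k 1) - G (update u k 0)) cube :=
    (integrable_of_continuous (hG.comp (continuous_id.update k continuous_const))
      fun u => hB _).sub
      (integrable_of_continuous (hG.comp (continuous_id.update k continuous_const)) fun u => hB _)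
  rw [faceAvg, ← φ.integral_comp_comm hi']
  have hb : ∀ᵐ u ∂cube, φ (G (update u k 1) - G (update u k 0)) ∈ Icc lo hi := by
    filter_upwards [ae_cube] with u hu using h u hu
  exact (convex_Icc lo hi).integral_mem isClosed_Icc hb (φ.integrable_comp hi')

end Vale.Agent.P079.Full
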