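import Vale.Agent.P079.Minimal
import Vale.Agent.P079.Defs

/-!
P079 full answer: interfaces between the blocks of the proof that every reflexive Banach space has
the fixed point property.
-/

open Set Filter Topology Metric

namespace Vale.Agent.P079.Full

open Vale.Agent.P079

universe u v

variable {X : Type u} [NormedAddCommGroup X] [NormedSpace ℝ X]

/-- The closed linear span of `K - y`. -/
def Sp (y : X) (K : Set X) : Submodule ℝ X :=
  (Submodule.span ℝ ((fun q => q - y) '' K)).topologicalClosure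

lemma sub_mem_Sp (y : X) {K : Set X} {q : X} (hq : q ∈ K) : q - y ∈ Sp y K :=
  Submodule.le_topologicalClosure _ (Submodule.subset_span ⟨q, hq, rfl⟩)

/-- `q - y` as an element of the span. -/
def vec (y : X) {K : Set X} {q : X} (hq : q ∈ K) : Sp y K := ⟨q - y, sub_mem_Sp y hq⟩

/-- A finitely supported point of the thin box spanned from `y` by the segment to `p` and the
directions `e i - y` with radii `σ i`. -/
def boxPt {ι : Type v} (y p : X) (e : ι → X) (σ : ι → ℝ) (t : ℝ) (s : Finset ι) (u : ι → ℝ) : X :=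
  y + t • (p - y) + ∑ i ∈ s, (u i * σ i) • (e i - y)

/-- Everything the construction uses about a minimal invariant set of positive diameter. -/
structure Base (T : X → X) (K : Set X) where
  y : X
  d : ℕ → X
  ψ : ℕ → StrongDual ℝ X
  diam_pos : 0 < diam K
  good : Good T K
  nonexp : ∀ x ∈ K, ∀ z ∈ K, ‖T x - T z‖ ≤ ‖x - z‖
  fip : FipOn K
  y_mem : y ∈ K
  d_mem : ∀ i, d i ∈ K
  dense : ∀ q ∈ K, ∀ ε > 0, ∃ i, ‖q - d i‖ < ε
  /-- maps made from `id` by composing with `T` and taking convex combinations -/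
  orbit : ∀ x ∈ K, ∀ ε > 0, ∃ f : X → X, ∃ C : ℝ, 0 ≤ C ∧ MapsTo f K K ∧
    (∀ z ∈ K, ∀ w ∈ K, ‖f z - f w‖ ≤ ‖z - w‖) ∧ ‖f y - x‖ < ε ∧
    ∀ z ∈ K, ∀ q ∈ K, ‖f z - q‖ ≤ ‖z - q‖ + C * ‖T q - q‖
  /-- fine approximate fixed points are seen far from any given finite set by one functional -/
  kill : ∀ Q : Finset X, (∀ q ∈ Q, q ∈ K) → ∀ η > 0, ∃ δ > 0, ∀ x ∈ K, ‖T x - x‖ < δ →
    ∃ G : StrongDual ℝ X, ‖G‖ ≤ 1 ∧ diam K - η ≤ G (x - y) ∧ ∀ q ∈ Q, |G (q - y)| ≤ η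
  /-- arbitrarily fine approximate fixed points weakly close to `y` -/
  cand : ∀ δ > 0, ∀ F : Finset (StrongDual ℝ X), ∀ η > 0,
    ∃ x ∈ K, ‖T x - x‖ < δ ∧ ∀ φ ∈ F, |φ (x - y)| < η
  /-- the tests `ψ` decide weak convergence to `y` of sequences in `K` -/
  tests : ∀ x : ℕ → X, (∀ n, x n ∈ K) →
    (∀ i, Tendsto (fun n => ψ i (x n - y)) atTop (𝓝 0)) →
    ∀ φ : StrongDual ℝ X, Tendsto (fun n => φ (x n - y)) atTop (𝓝 0)

/-- The basic facts hold in a reflexive space. -/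
def BasePin (X : Type u) [NormedAddCommGroup X] [NormedSpace ℝ X] : Prop :=
  ∀ (T : X → X) (K : Set X), FipOn K → Good T K → (∀ S ⊆ K, Good T S → S = K) →
    (∀ x ∈ K, ∀ z ∈ K, ‖T x - T z‖ ≤ ‖x - z‖) → 0 < diam K → Nonempty (Base T K)

/-- Linearisation of a nonexpansive map over a thin box: a linear contraction of the span obeying
every bound that holds for all the face differences. -/
def BoxPin (X : Type u) [NormedAddCommGroup X] [NormedSpace ℝ X] : Prop :=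
  ∀ (K : Set X), IsClosed K → Bornology.IsBounded K → Convex ℝ K → FipOn K →
  ∀ (f : X → X), MapsTo f K K → (∀ z ∈ K, ∀ w ∈ K, ‖f z - f w‖ ≤ ‖z - w‖) →
  ∀ (y p : X) (hy : y ∈ K) (hp : p ∈ K) (e : ℕ ⊕ ℕ → X) (he : ∀ i, e i ∈ K) (σ : ℕ ⊕ ℕ → ℝ),
    (∀ i, 0 ≤ σ i) → (∀ q ∈ K, ∀ ε > 0, ∃ i, 0 < σ i ∧ ‖q - e i‖ < ε) →
  ∀ S : ℝ, 0 < S → S < 1 → (∀ s : Finset (ℕ ⊕ ℕ), ∑ i ∈ s, σ i ≤ S) →
  ∃ L : Sp y K →L[ℝ] Sp y K, ‖L‖ ≤ 1 ∧
    (∀ (i : ℕ ⊕ ℕ) (φ : StrongDual ℝ X) (c : ℝ), 0 < σ i →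
      (∀ (t : ℝ) (s : Finset (ℕ ⊕ ℕ)) (u : ℕ ⊕ ℕ → ℝ), 0 ≤ t → t ≤ 1 - S →
        (∀ j, 0 ≤ u j ∧ u j ≤ 1) → i ∉ s →
        c * σ i ≤ φ (f (boxPt y p e σ t s u + σ i • (e i - y)) - f (boxPt y p e σ t s u))) →
      c ≤ φ (L (vec y (he i)) : X)) ∧
    (∀ (φ : StrongDual ℝ X) (c : ℝ),
      (∀ (s : Finset (ℕ ⊕ ℕ)) (u : ℕ ⊕ ℕ → ℝ), (∀ j, 0 ≤ u j ∧ u j ≤ 1) →
        c * (1 - S) ≤ φ (f (boxPt y p e σ (1 - S) s u) - f (boxPt y p e σ 0 s u))) →
      c ≤ φ (L (vec y hp) : X))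

/-- Composite of the operators along a chain listed from the newest index to the oldest. -/
noncomputable def comp {y : X} {K : Set X} (L : ℕ → ℕ → (Sp y K →L[ℝ] Sp y K)) :
    List ℕ → (Sp y K →L[ℝ] Sp y K)
  | [] => ContinuousLinearMap.id ℝ _
  | [_] => ContinuousLinearMap.id ℝ _
  | b :: a :: r => (comp L (a :: r)).comp (L a b)

/-- The sequence, the operators and the functionals handed to the final argument. -/
structure Chains {T : X → X} {K : Set X} (B : Base T K) where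
  x : ℕ → X
  x_mem : ∀ n, x n ∈ K
  G : ℕ → StrongDual ℝ X
  L : ℕ → ℕ → (Sp B.y K →L[ℝ] Sp B.y K)
  G_norm : ∀ n, ‖G n‖ ≤ 1
  L_norm : ∀ a b, ‖L a b‖ ≤ 1
  weak : ∀ φ : StrongDual ℝ X, Tendsto (fun n => φ (x n - B.y)) atTop (𝓝 0)
  coarse : ∀ i, Tendsto (fun n => G n (B.d i - B.y)) atTop (𝓝 0)
  endpoint : ∀ a b, a < b →
    ‖(L a b (vec B.y (x_mem b)) : X) - (x b - x a)‖ ≤ diam K / 2 ^ (a + 5)
  retain : ∀ (n : ℕ) (l : List ℕ), l.Pairwise (· > ·) → (∀ a ∈ l, a < n) →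
    99 / 100 * diam K ≤ G n (comp L l (vec B.y (x_mem n)) : X)

/-- Construction of the sequence with all retention properties. -/
def StagePin (X : Type u) [NormedAddCommGroup X] [NormedSpace ℝ X] : Prop :=
  BoxPin X → ∀ (T : X → X) (K : Set X) (B : Base T K), Nonempty (Chains B)

/-- The chains contradict reflexivity. -/
def FinalPin (X : Type u) [NormedAddCommGroup X] [NormedSpace ℝ X] : Prop :=
  Function.Surjective (NormedSpace.inclusionInDoubleDual ℝ X) →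
    ∀ (T : X → X) (K : Set X) (B : Base T K), Chains B → False

end Vale.Agent.P079.Full
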