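import Vale.Agent.P079.Minimal

/-!
P079 full: the base point, and probes. An approximate fixed point close enough to fixed comes with
a functional that reads it fully from the base point and annihilates prescribed points.
-/

open Set Filter Topology Metric

namespace Vale.Agent.P079.Full

open Vale.Agent.P079

universe u

variable {X : Type u} [NormedAddCommGroup X] [NormedSpace ℝ X] {T : X → X} {K : Set X}

/-- Approximate fixed points with a weak limit along the hyperfilter. -/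
theorem exists_base [CompleteSpace X] (hX : FipOn K) (hK : Good T K)
    (hT : ∀ x ∈ K, ∀ y ∈ K, ‖T x - T y‖ ≤ ‖x - y‖) :
    ∃ a : ℕ → X, (∀ n, a n ∈ K) ∧ Tendsto (fun n => ‖T (a n) - a n‖) atTop (𝓝 0) ∧
      ∃ y ∈ K, ∀ φ : StrongDual ℝ X,
        Tendsto (fun n => φ (a n)) (hyperfilter ℕ) (𝓝 (φ y)) := by
  choose a ha hdef using fun n : ℕ =>
    exists_afp hK hT (show (0 : ℝ) < 1 / ((n : ℝ) + 1) by positivity)
  obtain ⟨y, hy, hw⟩ := exists_wlim hX hK.closed hK.convex (hyperfilter ℕ) ha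
  exact ⟨a, ha, squeeze_zero (fun n => norm_nonneg _) (fun n => (hdef n).le)
    tendsto_one_div_add_atTop_nhds_zero_nat, y, hy, hw.tendsto_apply⟩

/-- Goebel-Karlovitz against a uniform mixture: one norm-one functional reads a good approximate
fixed point from `y` at the diameter and almost kills every point of `Q`. -/
theorem exists_probe (hX : FipOn K) (hK : Good T K) (hmin : ∀ S ⊆ K, Good T S → S = K)
    (hT : ∀ x ∈ K, ∀ y ∈ K, ‖T x - T y‖ ≤ ‖x - y‖) {y : X} (hy : y ∈ K) (Q : Finset X)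
    (hQ : ∀ q ∈ Q, q ∈ K) {δ : ℝ} (hδ : 0 < δ) :
    ∃ η > 0, ∀ z ∈ K, ‖T z - z‖ < η → ∃ G : StrongDual ℝ X, ‖G‖ ≤ 1 ∧
      diam K - δ ≤ G (z - y) ∧ ∀ q ∈ Q, |G (q - y)| ≤ δ := by
  classical
  set S := insert y Q with hS
  have hSK : ∀ q ∈ S, q ∈ K := fun q hq => by
    rcases Finset.mem_insert.1 hq with rfl | h
    · exact hy
    · exact hQ q h
  have hne : S.Nonempty := Finset.insert_nonempty _ _
  set N : ℝ := (S.card : ℝ) with hN
  have hN1 : 1 ≤ N := by rw [hN]; exact_mod_cast Nat.succ_le_of_lt hne.card_pos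
  have hsum : ∑ _q ∈ S, 1 / N = 1 := by
    rw [Finset.sum_const, nsmul_eq_mul, ← hN, mul_one_div_cancel (by linarith)]
  set m := ∑ q ∈ S, (1 / N) • q with hm
  have hmK : m ∈ K := hK.convex.sum_mem (fun _ _ => by positivity) hsum hSK
  obtain ⟨η, hη, h⟩ := goebel_karlovitz hX hK hmin hT hmK (div_pos hδ (by linarith : (0 : ℝ) < N))
  refine ⟨η, hη, fun z hz hdef => ?_⟩
  obtain ⟨G, hG, hGz⟩ := exists_dual_vector'' ℝ (z - m)
  simp only [RCLike.ofReal_real_eq_id, id] at hGz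
  have hle : ∀ q ∈ S, G (z - q) ≤ diam K := fun q hq =>
    (((le_abs_self _).trans (G.le_opNorm _)).trans
      (mul_le_of_le_one_left (norm_nonneg _) hG)).trans (norm_sub_le_diam hK.bdd hz (hSK q hq))
  have htot : ∑ q ∈ S, G (z - q) = N * ‖z - m‖ := by
    rw [← hGz, map_sub, mul_sub, hm, map_sum]
    simp only [map_smul, map_sub, smul_eq_mul, Finset.mul_sum, Finset.sum_sub_distrib,
      Finset.sum_const, nsmul_eq_mul, ← hN]
    congr 1
    exact Finset.sum_congr rfl fun q _ => by field_simp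
  have hge : ∀ q ∈ S, diam K - δ ≤ G (z - q) := by
    intro q hq
    have h1 := Finset.sum_le_sum fun i (hi : i ∈ S.erase q) => hle i (Finset.mem_of_mem_erase hi)
    rw [← Finset.sum_erase_add _ _ hq] at htot
    simp only [Finset.sum_const, nsmul_eq_mul, Finset.card_erase_of_mem hq,
      Nat.cast_sub (Nat.one_le_iff_ne_zero.2 hne.card_ne_zero), Nat.cast_one, ← hN] at h1
    have h2 := mul_le_mul_of_nonneg_left (h z hz hdef) (by linarith : (0 : ℝ) ≤ N)
    rw [mul_sub, mul_div_cancel₀ _ (by linarith : N ≠ 0)] at h2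
    linarith
  refine ⟨G, hG, hge y (Finset.mem_insert_self _ _), fun q hq => ?_⟩
  have a1 := hge q (Finset.mem_insert_of_mem hq)
  have a2 := hle q (Finset.mem_insert_of_mem hq)
  have b1 := hge y (Finset.mem_insert_self _ _)
  have b2 := hle y (Finset.mem_insert_self _ _)
  simp only [map_sub] at a1 a2 b1 b2 ⊢
  exact abs_le.2 ⟨by linarith, by linarith⟩

/-- The next point of the construction: an approximate fixed point with defect below `δ`, weakly
`δ`-close to `y` on finitely many tests, together with a probe killing `Q`. -/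
theorem exists_next (hX : FipOn K) (hK : Good T K) (hmin : ∀ S ⊆ K, Good T S → S = K)
    (hT : ∀ x ∈ K, ∀ y ∈ K, ‖T x - T y‖ ≤ ‖x - y‖) {a : ℕ → X} (ha : ∀ n, a n ∈ K)
    (hdef : Tendsto (fun n => ‖T (a n) - a n‖) atTop (𝓝 0)) {y : X} (hy : y ∈ K)
    (hw : ∀ φ : StrongDual ℝ X, Tendsto (fun n => φ (a n)) (hyperfilter ℕ) (𝓝 (φ y)))
    (Q : Finset X) (hQ : ∀ q ∈ Q, q ∈ K) (Ψ : Finset (StrongDual ℝ X)) {δ : ℝ} (hδ : 0 < δ) :
    ∃ x ∈ K, ‖T x - x‖ < δ ∧ (∀ φ ∈ Ψ, |φ (x - y)| < δ) ∧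
      ∃ G : StrongDual ℝ X, ‖G‖ ≤ 1 ∧ diam K - δ ≤ G (x - y) ∧ ∀ q ∈ Q, |G (q - y)| ≤ δ := by
  obtain ⟨η, hη, hp⟩ := exists_probe hX hK hmin hT hy Q hQ hδ
  have h1 : ∀ᶠ n in (hyperfilter ℕ : Filter ℕ), ‖T (a n) - a n‖ < min δ η :=
    Nat.hyperfilter_le_atTop (hdef.eventually (gt_mem_nhds (lt_min hδ hη)))
  have h2 : ∀ᶠ n in (hyperfilter ℕ : Filter ℕ), ∀ φ ∈ Ψ, |φ (a n - y)| < δ := by
    rw [eventually_all_finset]
    intro φ _
    have h3 := ((hw φ).sub_const (φ y)).abs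
    simp only [sub_self, abs_zero] at h3
    simpa only [map_sub] using h3.eventually (gt_mem_nhds hδ)
  obtain ⟨n, hn1, hn2⟩ := (h1.and h2).exists
  exact ⟨a n, ha n, hn1.trans_le (min_le_left _ _), hn2,
    hp _ (ha n) (hn1.trans_le (min_le_right _ _))⟩

end Vale.Agent.P079.Full
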