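import Vale.Agent.P079.Minimal

/-!
P079 full: separability of a minimal invariant set, a dense sequence in it, and a countable
family of functionals deciding weak convergence inside it.
-/

open Set Filter Topology Metric

namespace Vale.Agent.P079.Full

open Vale.Agent.P079

universe u

variable {X : Type u} [NormedAddCommGroup X] [NormedSpace ℝ X] {T : X → X} {K : Set X}

/-- One closure step: images under T and rational segment points. -/
def grow (T : X → X) (S : Set X) : Set X :=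
  S ∪ T '' S ∪ image2 (fun (ab : X × X) (q : ℚ) => (1 - (q : ℝ)) • ab.1 + (q : ℝ) • ab.2)
    (S ×ˢ S) (Icc (0 : ℚ) 1)

/-- A minimal invariant set is separable: it has a dense sequence. -/
theorem exists_dense_seq (hK : Good T K) (hmin : ∀ S ⊆ K, Good T S → S = K)
    (hT : ∀ x ∈ K, ∀ y ∈ K, ‖T x - T y‖ ≤ ‖x - y‖) :
    ∃ p : ℕ → X, (∀ i, p i ∈ K) ∧ ∀ x ∈ K, ∀ ε > 0, ∃ i, ‖x - p i‖ < ε := by
  obtain ⟨x₀, hx₀⟩ := hK.nonempty
  set S : ℕ → Set X := fun n => (grow T)^[n] {x₀} with hS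
  have hsucc : ∀ n, S (n + 1) = grow T (S n) := fun n => by
    simp only [hS, Function.iterate_succ_apply']
  have hSK : ∀ n, S n ⊆ K ∧ (S n).Countable := by
    intro n
    induction n with
    | zero => exact ⟨by simp [hS, hx₀], by simp [hS]⟩
    | succ n ih =>
      rw [hsucc]
      refine ⟨union_subset (union_subset ih.1 ?_) ?_, (ih.2.union (ih.2.image T)).union
        ((ih.2.prod ih.2).image2 (to_countable _) _)⟩
      · rintro _ ⟨x, hx, rfl⟩; exact hK.maps (ih.1 hx)
      · rintro _ ⟨⟨a, b⟩, ⟨ha, hb⟩, q, ⟨q0, q1⟩, rfl⟩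
        have q0' : (0 : ℝ) ≤ (q : ℝ) := by exact_mod_cast q0
        have q1' : (q : ℝ) ≤ 1 := by exact_mod_cast q1
        exact hK.convex (ih.1 ha) (ih.1 hb) (by linarith) q0' (by ring)
  have hmono : Monotone S := monotone_nat_of_le_succ fun n => by
    rw [hsucc]; exact subset_union_left.trans subset_union_left
  set A := ⋃ n, S n with hA
  have hAK : A ⊆ K := iUnion_subset fun n => (hSK n).1
  have hsub : closure A ⊆ K := closure_minimal hAK hK.closed
  have hgood : Good T (closure A) :=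
    { nonempty := ⟨x₀, subset_closure (mem_iUnion.2 ⟨0, by simp [hS]⟩)⟩
      closed := isClosed_closure
      bdd := hK.bdd.subset hsub
      maps := by
        intro x hx
        refine Metric.mem_closure_iff.2 fun ε hε => ?_
        obtain ⟨a, ha, hax⟩ := Metric.mem_closure_iff.1 hx ε hε
        obtain ⟨n, hn⟩ := mem_iUnion.1 ha
        refine ⟨T a, mem_iUnion.2 ⟨n + 1, ?_⟩, ?_⟩
        · rw [hsucc]; exact Or.inl (Or.inr ⟨a, hn, rfl⟩)
        · rw [dist_eq_norm] at hax ⊢
          exact (hT x (hsub hx) a (hAK ha)).trans_lt hax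
      convex := by
        intro a ha b hb s t hs ht hst
        obtain ⟨u, hu, hua⟩ := mem_closure_iff_seq_limit.1 ha
        obtain ⟨v, hv, hvb⟩ := mem_closure_iff_seq_limit.1 hb
        set q : ℕ → ℚ := fun n => (⌊t * (n + 1 : ℕ)⌋₊ : ℚ) / (n + 1 : ℕ) with hq
        have hq1 : ∀ n, ((q n : ℚ) : ℝ) ≤ t ∧ t - 1 / ((n : ℝ) + 1) ≤ (q n : ℝ) := by
          intro n
          have hn : (0 : ℝ) < ((n + 1 : ℕ) : ℝ) := by positivity
          have e : ((q n : ℚ) : ℝ) = (⌊t * (n + 1 : ℕ)⌋₊ : ℝ) / ((n + 1 : ℕ) : ℝ) := by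
            simp [hq]
          rw [e]
          refine ⟨(div_le_iff₀ hn).2 (Nat.floor_le (by positivity)), ?_⟩
          rw [le_div_iff₀ hn]
          have := Nat.lt_floor_add_one (t * (n + 1 : ℕ))
          push_cast at this ⊢
          field_simp
          linarith
        have hlim : Tendsto (fun n => ((q n : ℚ) : ℝ)) atTop (𝓝 t) := by
          refine tendsto_of_tendsto_of_tendsto_of_le_of_le ?_ tendsto_const_nhds
            (fun n => (hq1 n).2) (fun n => (hq1 n).1)
          simpa using (tendsto_one_div_add_atTop_nhds_zero_nat (𝕜 := ℝ)).const_sub t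
        have e : s = 1 - t := by linarith
        subst e
        refine mem_closure_of_tendsto
          (((tendsto_const_nhds.sub hlim).smul hua).add (hlim.smul hvb))
          (Eventually.of_forall fun n => ?_)
        obtain ⟨i, hi⟩ := mem_iUnion.1 (hu n)
        obtain ⟨j, hj⟩ := mem_iUnion.1 (hv n)
        refine mem_iUnion.2 ⟨max i j + 1, ?_⟩
        rw [hsucc]
        refine Or.inr ⟨(u n, v n), ⟨hmono (le_max_left i j) hi, hmono (le_max_right i j) hj⟩,
          q n, ⟨by positivity, ?_⟩, rfl⟩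
        have h1 : ((q n : ℚ) : ℝ) ≤ 1 := (hq1 n).1.trans (by linarith)
        exact_mod_cast h1 }
  have heq : closure A = K := hmin _ hsub hgood
  obtain ⟨p, hp⟩ := (countable_iUnion fun n => (hSK n).2).exists_eq_range
    (⟨x₀, mem_iUnion.2 ⟨0, by simp [hS]⟩⟩ : A.Nonempty)
  have hp' : A = range p := hp
  refine ⟨p, fun i => hAK (hp' ▸ mem_range_self i), fun x hx ε hε => ?_⟩
  obtain ⟨a, ha, hax⟩ := Metric.mem_closure_iff.1 (heq.symm ▸ hx) ε hε
  obtain ⟨i, rfl⟩ := hp' ▸ ha
  exact ⟨i, by rwa [← dist_eq_norm]⟩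

/-- Countably many functionals separate the points of a separable set. -/
theorem exists_separating {p : ℕ → X} (hp : ∀ x ∈ K, ∀ ε > 0, ∃ i, ‖x - p i‖ < ε) :
    ∃ ψ : ℕ → StrongDual ℝ X, (∀ i, ‖ψ i‖ ≤ 1) ∧
      ∀ v ∈ K, ∀ w ∈ K, (∀ i, ψ i v = ψ i w) → v = w := by
  choose g hg hgv using fun ij : ℕ × ℕ => exists_dual_vector'' ℝ (p ij.1 - p ij.2)
  refine ⟨fun k => g (Nat.unpair k), fun k => hg _, fun v hv w hw h => ?_⟩
  by_contra hne
  have hpos : 0 < ‖v - w‖ := norm_pos_iff.2 (sub_ne_zero.2 hne)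
  obtain ⟨i, hi⟩ := hp v hv (‖v - w‖ / 5) (by linarith)
  obtain ⟨j, hj⟩ := hp w hw (‖v - w‖ / 5) (by linarith)
  have hk := h (Nat.pair i j)
  simp only [Nat.unpair_pair] at hk
  have h1 : ‖p i - p j‖ = g (i, j) (p i - v) + g (i, j) (w - p j) := by
    have := hgv (i, j)
    simp only [map_sub, RCLike.ofReal_real_eq_id, id] at this ⊢
    linarith
  have hb : ∀ z : X, g (i, j) z ≤ ‖z‖ := fun z =>
    ((le_abs_self _).trans ((g (i, j)).le_opNorm z)).trans
      (mul_le_of_le_one_left (norm_nonneg _) (hg _))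
  have h2 := hb (p i - v)
  have h3 := hb (w - p j)
  have h4 : ‖v - w‖ ≤ ‖v - p i‖ + ‖p i - p j‖ + ‖p j - w‖ := by
    calc ‖v - w‖ = ‖(v - p i) + (p i - p j) + (p j - w)‖ := by congr 1; abel
      _ ≤ _ := norm_add₃_le
  rw [norm_sub_rev (p i) v] at h2
  rw [norm_sub_rev (p j) w] at h4
  linarith

/-- Along an ultrafilter, convergence on a separating family is weak convergence inside K. -/
theorem tendsto_of_separating (hX : FipOn K) (hcl : IsClosed K) (hcv : Convex ℝ K)
    {ψ : ℕ → StrongDual ℝ X} (hψ : ∀ v ∈ K, ∀ w ∈ K, (∀ i, ψ i v = ψ i w) → v = w)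
    {ι : Type*} (U : Ultrafilter ι) {x : ι → X} (hx : ∀ n, x n ∈ K) {w : X} (hw : w ∈ K)
    (h : ∀ i, Tendsto (fun n => ψ i (x n)) U (𝓝 (ψ i w))) (φ : StrongDual ℝ X) :
    Tendsto (fun n => φ (x n)) U (𝓝 (φ w)) := by
  obtain ⟨v, hv, hlim⟩ := exists_wlim hX hcl hcv U hx
  have : v = w := hψ v hv w hw fun i => tendsto_nhds_unique (hlim.tendsto_apply (ψ i)) (h i)
  exact this ▸ hlim.tendsto_apply φ

end Vale.Agent.P079.Full
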