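import Vale.Agent.P079.Orbit
import Vale.Agent.P079.Full.Pins
import Vale.Agent.P079.Full.Probe
import Vale.Agent.P079.Full.Separable

/-!
P079 full: the base data exist in every minimal invariant set of positive diameter with weak
limits.
-/

open Set Filter Topology Metric

namespace Vale.Agent.P079.Full

open Vale.Agent.P079

universe u

variable {X : Type u} [NormedAddCommGroup X] [NormedSpace ℝ X]

theorem basePin [CompleteSpace X] : BasePin X := by
  intro T K hX hK hmin hT hD
  obtain ⟨a, ha, hdef, y, hy, hw⟩ := exists_base hX hK hT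
  obtain ⟨p, hp, hdense⟩ := Full.exists_dense_seq hK hmin hT
  obtain ⟨ψ, -, hψ⟩ := exists_separating (K := K) hdense
  refine ⟨
    { y := y
      d := p
      ψ := ψ
      diam_pos := hD
      good := hK
      nonexp := hT
      fip := hX
      y_mem := hy
      d_mem := hp
      dense := hdense
      orbit := fun x hx ε hε => ?_
      kill := fun Q hQ η hη => exists_probe hX hK hmin hT hy Q hQ hη
      cand := fun δ hδ F η hη => ?_
      tests := fun x hx h φ => ?_ }⟩
  · obtain ⟨f, c, hf, hfx⟩ := exists_fine hK hmin hT hy hx hε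
    exact ⟨f, c, hf.nonneg, hf.maps, hf.lip, hfx, fun z hz q hq =>
      (norm_sub_le_norm_sub_add_norm_sub _ (f q) _).trans
        (add_le_add (hf.lip z hz q hq) (hf.fix q hq))⟩
  · obtain ⟨x, hxK, hxd, hxt, -⟩ := exists_next hX hK hmin hT ha hdef hy hw ∅ (by simp) F
      (lt_min hδ hη)
    exact ⟨x, hxK, hxd.trans_le (min_le_left _ _),
      fun φ hφ => (hxt φ hφ).trans_le (min_le_right _ _)⟩
  · refine tendsto_iff_ultrafilter _ _ _ |>.2 fun U hU => ?_
    have h' : ∀ i, Tendsto (fun n => ψ i (x n)) U (𝓝 (ψ i y)) := fun i => by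
      simpa [map_sub] using ((h i).mono_left hU).add_const (ψ i y)
    simpa [map_sub] using
      (tendsto_of_separating hX hK.closed hK.convex hψ U hx hy h' φ).sub_const (φ y)

end Vale.Agent.P079.Full
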