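import Vale.Agent.P079.Full.Pins
import Vale.Agent.P079.Full.Average

/-!
P079: linearisation of a nonexpansive map over a thin box (the BOX block).
-/

open Set Filter Topology MeasureTheory Function

namespace Vale.Agent.P079.Full

universe u

variable {X : Type u} [NormedAddCommGroup X] [NormedSpace ℝ X]

instance completeSpace_Sp [CompleteSpace X] (y : X) (K : Set X) : CompleteSpace (Sp y K) :=
  (Submodule.isClosed_topologicalClosure _).completeSpace_coe

/-- A convex combination centred at `y`. -/
theorem centred_sum_mem {K : Set X} (hK : Convex ℝ K) {y : X} (hy : y ∈ K) {ι : Type*}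
    (s : Finset ι) (a : ι → ℝ) (v : ι → X) (ha : ∀ i ∈ s, 0 ≤ a i) (hv : ∀ i ∈ s, v i ∈ K)
    (hs : ∑ i ∈ s, a i ≤ 1) : y + ∑ i ∈ s, a i • (v i - y) ∈ K := by
  have key : ∑ o ∈ Finset.insertNone s,
      (Option.elim o (1 - ∑ i ∈ s, a i) a) • (Option.elim o y v) ∈ K := by
    refine hK.sum_mem ?_ ?_ ?_
    · intro o ho
      cases o with
      | none => exact sub_nonneg.2 hs
      | some i => exact ha i (Finset.some_mem_insertNone.1 ho)
    · simp [Finset.sum_insertNone]
    · intro o ho
      cases o with
      | none => exact hy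
      | some i => exact hv i (Finset.some_mem_insertNone.1 ho)
  have e : y + ∑ i ∈ s, a i • (v i - y) = ∑ o ∈ Finset.insertNone s,
      (Option.elim o (1 - ∑ i ∈ s, a i) a) • (Option.elim o y v) := by
    rw [Finset.sum_insertNone]
    simp only [Option.elim, smul_sub, Finset.sum_sub_distrib, ← Finset.sum_smul, sub_smul, one_smul]
    abel
  exact e ▸ key

theorem boxPin [CompleteSpace X] : BoxPin X := by
  intro K hKc hKb hKconv _ f hfK hf y p hy hp e he σ hσ hdense S hS0 hS1 hS
  classical
  set ν : ℕ ≃ Option (ℕ ⊕ ℕ) := (Denumerable.eqv (Option (ℕ ⊕ ℕ))).symm with hν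
  let Wo : Option (ℕ ⊕ ℕ) → X := fun o =>
    Option.elim o ((1 - S) • (p - y)) fun i => σ i • (e i - y)
  have hWo : ∀ o, Wo o ∈ Sp y K := by
    intro o
    cases o with
    | none => exact Submodule.smul_mem _ _ (sub_mem_Sp y hp)
    | some i => exact Submodule.smul_mem _ _ (sub_mem_Sp y (he i))
  let w : ℕ → Sp y K := fun k => ⟨Wo (ν k), hWo _⟩
  obtain ⟨R, hR⟩ := Metric.isBounded_iff.1 hKb
  have hR' : ∀ q ∈ K, ‖q - y‖ ≤ R := fun q hq => by simpa [dist_eq_norm] using hR hq hy
  have hR0 : 0 ≤ R := (norm_nonneg _).trans (hR' y hy)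
  have hsum : Summable fun k => ‖Wo (ν k)‖ := by
    refine (ν.summable_iff (f := fun o => ‖Wo o‖)).2
      (summable_of_sum_le (fun o => norm_nonneg _) (c := R) fun O => ?_)
    have hsub : O ⊆ Finset.insertNone (Finset.eraseNone O) := by
      intro o ho
      cases o with
      | none => simp
      | some i => simpa using ho
    refine (Finset.sum_le_sum_of_subset_of_nonneg hsub fun o _ _ => norm_nonneg _).trans ?_
    rw [Finset.sum_insertNone]
    calc _ ≤ (1 - S) * R + ∑ i ∈ Finset.eraseNone O, σ i * R := by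
          refine add_le_add ?_ (Finset.sum_le_sum fun i _ => ?_)
          · simp only [Wo, Option.elim, norm_smul, Real.norm_of_nonneg (sub_nonneg.2 hS1.le)]
            exact mul_le_mul_of_nonneg_left (hR' p hp) (sub_nonneg.2 hS1.le)
          · simp only [Wo, Option.elim, norm_smul, Real.norm_of_nonneg (hσ i)]
            exact mul_le_mul_of_nonneg_left (hR' _ (he i)) (hσ i)
      _ ≤ R := by
          rw [← Finset.sum_mul]
          nlinarith [hS (Finset.eraseNone O)]
  -- finite box points
  have hbox : ∀ (t : ℝ) (s : Finset (ℕ ⊕ ℕ)) (u : ℕ ⊕ ℕ → ℝ), 0 ≤ t → t ≤ 1 - S →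
      (∀ j, 0 ≤ u j ∧ u j ≤ 1) → boxPt y p e σ t s u ∈ K := by
    intro t s u ht0 ht1 hu
    have h := centred_sum_mem hKconv hy (Finset.insertNone s)
      (fun o => Option.elim o t fun i => u i * σ i) (fun o => Option.elim o p e) ?_ ?_ ?_
    · simpa [boxPt, Finset.sum_insertNone, add_assoc] using h
    · intro o _
      cases o with
      | none => exact ht0
      | some i => exact mul_nonneg (hu i).1 (hσ i)
    · intro o _
      cases o with
      | none => exact hp
      | some i => exact he i
    · rw [Finset.sum_insertNone]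
      simp only [Option.elim]
      have : ∑ i ∈ s, u i * σ i ≤ ∑ i ∈ s, σ i :=
        Finset.sum_le_sum fun i _ => mul_le_of_le_one_left (hσ i) (hu i).2
      linarith [hS s]
  let cl : ℝ → ℝ := fun r => projIcc (0 : ℝ) 1 zero_le_one r
  have hcl : ∀ r, cl r ∈ Icc (0 : ℝ) 1 := fun r => (projIcc (0 : ℝ) 1 zero_le_one r).2
  have hcl' : ∀ r ∈ Icc (0 : ℝ) 1, cl r = r := fun r hr => by simp [cl, projIcc_of_mem _ hr]
  let tt : Finset (Option (ℕ ⊕ ℕ)) → (Option (ℕ ⊕ ℕ) → ℝ) → ℝ := fun O a =>
    (if none ∈ O then a none else 0) * (1 - S)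
  have hform : ∀ (O : Finset (Option (ℕ ⊕ ℕ))) (a : Option (ℕ ⊕ ℕ) → ℝ),
      y + ∑ o ∈ O, a o • Wo o =
        boxPt y p e σ (tt O a) (Finset.eraseNone O) fun i => a (some i) := by
    intro O a
    have h1 : ∑ o ∈ O, a o • Wo o =
        ∑ o ∈ Finset.insertNone (Finset.eraseNone O), if o ∈ O then a o • Wo o else 0 := by
      rw [← Finset.sum_filter]
      refine Finset.sum_congr ?_ fun _ _ => rfl
      ext o
      cases o <;> simp
    rw [h1, Finset.sum_insertNone, boxPt, add_assoc]
    congr 1
    refine congrArg₂ _ ?_ (Finset.sum_congr rfl fun i hi => ?_)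
    · by_cases h : none ∈ O <;> simp [tt, h, Wo, smul_smul]
    · simp [Finset.mem_eraseNone.1 hi, Wo, smul_smul]
  let Q : ℕ → (ℕ → ℝ) → X := fun N u =>
    y + ∑ k ∈ Finset.range N, cl (u k) • Wo (ν k)
  let P : (ℕ → ℝ) → X := fun u => y + ∑' k, cl (u k) • Wo (ν k)
  have hclsum : ∀ u : ℕ → ℝ, Summable fun k => cl (u k) • Wo (ν k) := fun u =>
    Summable.of_norm_bounded hsum fun k => by
      rw [norm_smul, Real.norm_of_nonneg (hcl _).1]
      exact mul_le_of_le_one_left (norm_nonneg _) (hcl _).2
  have hQlim : ∀ u, Tendsto (fun N => Q N u) atTop (𝓝 (P u)) := fun u =>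
    tendsto_const_nhds.add (hclsum u).hasSum.tendsto_sum_nat
  have hQmap : ∀ N u, y + ∑ o ∈ (Finset.range N).map ν.toEmbedding,
      cl (u (ν.symm o)) • Wo o = Q N u := by
    intro N u
    simp [Q, Finset.sum_map]
  have hQK : ∀ N u, Q N u ∈ K := by
    intro N u
    rw [← hQmap, hform]
    refine hbox _ _ _ ?_ ?_ fun i => hcl _
    · exact mul_nonneg (by split_ifs <;> simp [(hcl _).1]) (sub_nonneg.2 hS1.le)
    · refine mul_le_of_le_one_left (sub_nonneg.2 hS1.le) ?_
      split_ifs <;> simp [(hcl _).2]
  have hPK : ∀ u, P u ∈ K := fun u =>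
    hKc.mem_of_tendsto (hQlim u) (Eventually.of_forall fun N => hQK N u)
  have hfc : ContinuousOn f K :=
    (LipschitzOnWith.of_dist_le_mul (K := 1) fun z hz z' hz' => by
      simpa [dist_eq_norm] using hf z hz z' hz').continuousOn
  have hPc : Continuous P := by
    refine continuous_const.add (continuous_tsum (fun k => ?_) hsum fun k u => ?_)
    · exact ((continuous_projIcc.subtype_val).comp (continuous_apply k)).smul continuous_const
    · rw [norm_smul, Real.norm_of_nonneg (hcl _).1]
      exact mul_le_of_le_one_left (norm_nonneg _) (hcl _).2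
  let G : (ℕ → ℝ) → Sp y K := fun u => vec y (hfK (hPK u))
  have hG : Continuous G :=
    ((hfc.comp_continuous hPc hPK).sub continuous_const).subtype_mk _
  have hGB : ∀ u, ‖G u‖ ≤ R := fun u => hR' _ (hfK (hPK u))
  have hL : BoxLip G w := by
    intro u v hu hv N huv
    have e1 : P u - P v = ∑ k ∈ Finset.range N, (u k - v k) • Wo (ν k) := by
      simp only [P, add_sub_add_left_eq_sub]
      rw [← Summable.tsum_sub (hclsum u) (hclsum v), tsum_eq_sum (s := Finset.range N)]
      · refine Finset.sum_congr rfl fun k _ => ?_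
        rw [hcl' _ (hu k), hcl' _ (hv k), sub_smul]
      · intro k hk
        rw [huv k (by simpa using hk), sub_self]
    calc ‖G u - G v‖ = ‖f (P u) - f (P v)‖ := by
          simp [G, vec]
      _ ≤ ‖P u - P v‖ := hf _ (hPK u) _ (hPK v)
      _ = _ := by
          rw [e1, ← Submodule.norm_coe]
          simp [w]
  -- the linear contraction
  let A : ℕ → Sp y K := faceAvg G
  let lA : (ℕ →₀ ℝ) →ₗ[ℝ] Sp y K := Finsupp.linearCombination ℝ A
  let lw : (ℕ →₀ ℝ) →ₗ[ℝ] Sp y K := Finsupp.linearCombination ℝ w
  have hnorm : ∀ c, ‖lA c‖ ≤ 1 * ‖lw c‖ := by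
    intro c
    obtain ⟨N, hN⟩ : ∃ N, c.support ⊆ Finset.range N := ⟨c.support.sup id + 1, fun k hk =>
      Finset.mem_range.2 (Nat.lt_succ_of_le (Finset.le_sup (f := id) hk))⟩
    have eA : lA c = ∑ k ∈ Finset.range N, c k • A k := by
      rw [Finsupp.linearCombination_apply, Finsupp.sum]
      exact Finset.sum_subset hN fun k _ hk => by simp [Finsupp.notMem_support_iff.1 hk]
    have ew : lw c = ∑ k ∈ Finset.range N, c k • w k := by
      rw [Finsupp.linearCombination_apply, Finsupp.sum]
      exact Finset.sum_subset hN fun k _ hk => by simp [Finsupp.notMem_support_iff.1 hk]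
    rw [eA, ew, one_mul]
    exact norm_sum_faceAvg_le hG hGB hL N c
  have hd : DenseRange lw := by
    intro x
    rw [closure_subtype]
    set V : Submodule ℝ X := (LinearMap.range lw).map (Sp y K).subtype with hV
    have hVset : Subtype.val '' range lw = (V : Set X) := by
      rw [hV, Submodule.map_coe, LinearMap.coe_range]
      rfl
    have hmem : ∀ q ∈ K, q - y ∈ V.topologicalClosure := by
      intro q hq
      refine Metric.mem_closure_iff.2 fun ε hε => ?_
      obtain ⟨i, hi, hqi⟩ := hdense q hq ε hε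
      refine ⟨e i - y, ⟨(σ i)⁻¹ • w (ν.symm (some i)), ⟨Finsupp.single (ν.symm (some i)) (σ i)⁻¹,
        by simp [lw]⟩, ?_⟩, by simpa [dist_eq_norm] using hqi⟩
      simp [w, Wo, smul_smul, inv_mul_cancel₀ hi.ne']
    have hle : Sp y K ≤ V.topologicalClosure := by
      refine Submodule.topologicalClosure_minimal _ (Submodule.span_le.2 ?_)
        V.isClosed_topologicalClosure
      rintro _ ⟨q, hq, rfl⟩
      exact hmem q hq
    rw [hVset]
    exact hle x.2
  set L : Sp y K →L[ℝ] Sp y K := lA.extendOfNorm lw with hLdef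
  have hLw : ∀ k, L (w k) = A k := fun k => by
    have := LinearMap.extendOfNorm_eq (f := lA) hd ⟨1, hnorm⟩ (Finsupp.single k 1)
    simpa [lw, lA, hLdef] using this
  -- passing a bound on the finite faces to the average
  have hface : ∀ (o : Option (ℕ ⊕ ℕ)) (φ : StrongDual ℝ X) (m : ℝ),
      (∀ (O : Finset (Option (ℕ ⊕ ℕ))) (a : Option (ℕ ⊕ ℕ) → ℝ), o ∉ O →
        (∀ o', a o' ∈ Icc (0 : ℝ) 1) →
        m ≤ φ (f (y + ∑ o' ∈ O, a o' • Wo o' + Wo o) - f (y + ∑ o' ∈ O, a o' • Wo o'))) →
      m ≤ φ (L (w (ν.symm o)) : X) := by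
    intro o φ m h
    set k := ν.symm o with hk
    rw [hLw]
    have hφ : φ ((A k : Sp y K) : X) ∈ Icc m (‖φ‖ * (R + R)) := by
      refine apply_faceAvg_mem hG hGB (φ.comp (Sp y K).subtypeL) k fun u hu => ⟨?_, ?_⟩
      · have hval : φ.comp (Sp y K).subtypeL (G (update u k 1) - G (update u k 0)) =
            φ (f (P (update u k 1)) - f (P (update u k 0))) := by
          simp [G, vec]
        rw [hval]
        have hlim : ∀ r : ℝ, Tendsto (fun N => f (Q N (update u k r))) atTop
            (𝓝 (f (P (update u k r)))) := fun r =>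
          (hfc _ (hPK _)).tendsto.comp (tendsto_nhdsWithin_iff.2
            ⟨hQlim _, Eventually.of_forall fun N => hQK N _⟩)
        refine ge_of_tendsto (((φ.continuous.tendsto _).comp ((hlim 1).sub (hlim 0))))
          ((eventually_ge_atTop (k + 1)).mono fun N hN => ?_)
        have hkN : k ∈ Finset.range N := Finset.mem_range.2 hN
        have e0 : Q N (update u k 0) = y + ∑ o' ∈ ((Finset.range N).erase k).map ν.toEmbedding,
            cl (u (ν.symm o')) • Wo o' := by
          simp only [Q, Finset.sum_map, Equiv.coe_toEmbedding, Equiv.symm_apply_apply]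
          rw [← Finset.sum_erase_add _ _ hkN]
          simp only [update_self, hcl' 0 (by simp), zero_smul, add_zero]
          exact congrArg _ (Finset.sum_congr rfl fun i hi => by
            rw [update_of_ne (Finset.ne_of_mem_erase hi)])
        have e1 : Q N (update u k 1) = (y + ∑ o' ∈ ((Finset.range N).erase k).map ν.toEmbedding,
            cl (u (ν.symm o')) • Wo o') + Wo o := by
          simp only [Q, Finset.sum_map, Equiv.coe_toEmbedding, Equiv.symm_apply_apply]
          rw [← Finset.sum_erase_add _ _ hkN]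
          simp only [update_self, hcl' 1 (by simp), one_smul, ← add_assoc]
          rw [hk, Equiv.apply_symm_apply]
          exact congrArg (fun z => y + z + Wo o) (Finset.sum_congr rfl fun i hi => by
            rw [update_of_ne (Finset.ne_of_mem_erase hi)])
        show m ≤ φ (f (Q N (update u k 1)) - f (Q N (update u k 0)))
        rw [e0, e1]
        refine h _ _ ?_ fun o' => hcl _
        simp [hk]
      · calc _ ≤ ‖φ.comp (Sp y K).subtypeL (G (update u k 1) - G (update u k 0))‖ :=
              le_abs_self _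
          _ ≤ ‖φ‖ * ‖((G (update u k 1) - G (update u k 0) : Sp y K) : X)‖ := φ.le_opNorm _
          _ ≤ ‖φ‖ * (R + R) := mul_le_mul_of_nonneg_left
              ((norm_sub_le _ _).trans (add_le_add (hGB _) (hGB _))) (norm_nonneg _)
    exact hφ.1
  refine ⟨L, LinearMap.opNorm_extendOfNorm_le hd zero_le_one hnorm, fun i φ c hi h => ?_,
    fun φ c h => ?_⟩
  · have hw : w (ν.symm (some i)) = σ i • vec y (he i) := by
      ext; simp [w, Wo, vec]
    have := hface (some i) φ (c * σ i) fun O a ho ha => by
      rw [hform]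
      refine h _ _ (fun j => a (some j)) ?_ ?_ (fun j => ha _) (by simpa using ho)
      · exact mul_nonneg (by split_ifs <;> simp [(ha none).1]) (sub_nonneg.2 hS1.le)
      · refine mul_le_of_le_one_left (sub_nonneg.2 hS1.le) ?_
        split_ifs <;> simp [(ha none).2]
    rw [hw, map_smul, Submodule.coe_smul, map_smul, smul_eq_mul, mul_comm c] at this
    exact le_of_mul_le_mul_left this hi
  · have hw : w (ν.symm none) = (1 - S) • vec y hp := by
      ext; simp [w, Wo, vec]
    have := hface none φ (c * (1 - S)) fun O a ho ha => by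
      have e0 := hform O a
      have e1 : y + ∑ o' ∈ O, a o' • Wo o' + Wo none =
          boxPt y p e σ (1 - S) (Finset.eraseNone O) fun i => a (some i) := by
        rw [e0]
        simp only [tt, if_neg ho, boxPt, Wo, Option.elim, zero_mul, zero_smul, add_zero]
        abel
      rw [e1, e0]
      simpa [tt, ho] using h (Finset.eraseNone O) (fun j => a (some j)) fun j => ha _
    rw [hw, map_smul, Submodule.coe_smul, map_smul, smul_eq_mul, mul_comm c] at this
    exact le_of_mul_le_mul_left this (sub_pos.2 hS1)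

end Vale.Agent.P079.Full
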