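import Vale.Agent.P079.Full.Pins

open Set Filter Topology Metric

namespace Vale.Agent.P079.Full

open Vale.Agent.P079

universe u v

variable {X : Type u} [NormedAddCommGroup X] [NormedSpace ℝ X]

theorem boxPt_mem {ι : Type v} {K : Set X} (hK : Convex ℝ K) {y p : X} (hy : y ∈ K) (hp : p ∈ K)
    {e : ι → X} {σ : ι → ℝ} {s : Finset ι} (he : ∀ i ∈ s, e i ∈ K) (hσ : ∀ i ∈ s, 0 ≤ σ i)
    {t : ℝ} {u : ι → ℝ} (ht : 0 ≤ t) (hu : ∀ i, 0 ≤ u i ∧ u i ≤ 1)
    (hsum : t + ∑ i ∈ s, σ i ≤ 1) : boxPt y p e σ t s u ∈ K := by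
  classical
  have h1 : ∑ i ∈ s, u i * σ i ≤ ∑ i ∈ s, σ i :=
    Finset.sum_le_sum fun i hi => mul_le_of_le_one_left (hσ i hi) (hu i).2
  let w : Option (Option ι) → ℝ := fun o => Option.elim o (1 - t - ∑ i ∈ s, u i * σ i)
    fun o => Option.elim o t fun i => u i * σ i
  let z : Option (Option ι) → X := fun o => Option.elim o y fun o => Option.elim o p e
  have h := hK.sum_mem (t := Finset.insertNone (Finset.insertNone s)) (w := w) (z := z) ?_ ?_ ?_
  · rw [Finset.sum_insertNone, Finset.sum_insertNone] at h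
    simp only [w, z, Option.elim] at h
    have e1 : boxPt y p e σ t s u = (1 - t - ∑ i ∈ s, u i * σ i) • y +
        (t • p + ∑ i ∈ s, (u i * σ i) • e i) := by
      simp only [boxPt, smul_sub, Finset.sum_sub_distrib, ← Finset.sum_smul, sub_smul, one_smul]
      abel
    rwa [e1]
  · intro o ho
    match o with
    | none => simp only [w, Option.elim]; linarith
    | some none => exact ht
    | some (some i) =>
      simp only [Finset.some_mem_insertNone] at ho
      exact mul_nonneg (hu i).1 (hσ i ho)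
  · rw [Finset.sum_insertNone, Finset.sum_insertNone]
    simp only [w, Option.elim]
    ring
  · intro o ho
    match o with
    | none => exact hy
    | some none => exact hp
    | some (some i) =>
      simp only [Finset.some_mem_insertNone] at ho
      exact he i ho

/-- Images of a finite box are followed by a finite prefix of the dense sequence. -/
theorem exists_prefix_box {ι : Type v} {T : X → X} {K : Set X} (B : Base T K) {f : X → X}
    (hf : MapsTo f K K) (hlip : ∀ z ∈ K, ∀ w ∈ K, ‖f z - f w‖ ≤ ‖z - w‖) {p : X} (hp : p ∈ K)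
    {e : ι → X} {σ : ι → ℝ} {s : Finset ι} (he : ∀ i ∈ s, e i ∈ K) (hσ : ∀ i ∈ s, 0 ≤ σ i)
    {S : ℝ} (hsum : ∑ i ∈ s, σ i ≤ S) {π : ℝ} (hπ : 0 < π) :
    ∃ M : ℕ, ∀ (t : ℝ) (u : ι → ℝ), 0 ≤ t → t ≤ 1 - S → (∀ i, 0 ≤ u i ∧ u i ≤ 1) →
      ∃ i < M, ‖f (boxPt B.y p e σ t s u) - B.d i‖ < π := by
  classical
  let A : Set (ℝ × ({i // i ∈ s} → ℝ)) := Icc 0 (1 - S) ×ˢ pi univ fun _ => Icc 0 1
  let ext : ({i // i ∈ s} → ℝ) → ι → ℝ := fun v i => if h : i ∈ s then v ⟨i, h⟩ else 0
  let g : ℝ × ({i // i ∈ s} → ℝ) → X := fun a => boxPt B.y p e σ a.1 s (ext a.2)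
  have hgc : Continuous g := by
    unfold g boxPt
    refine (continuous_const.add (continuous_fst.smul continuous_const)).add
      (continuous_finsetSum _ fun i hi => ?_)
    simp only [ext, dif_pos hi]
    fun_prop
  have hgK : ∀ a ∈ A, g a ∈ K := by
    rintro ⟨t, v⟩ ⟨⟨ht0, ht1⟩, hv⟩
    refine boxPt_mem B.good.convex B.y_mem hp he hσ ht0 (fun i => ?_) (by linarith)
    simp only [ext]
    split_ifs with h
    · exact hv ⟨i, h⟩ trivial
    · simp
  have hfc : ContinuousOn f K := by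
    refine (LipschitzOnWith.of_dist_le_mul (K := 1) fun a ha b hb => ?_).continuousOn
    simpa [dist_eq_norm] using hlip a ha b hb
  have hA : IsCompact A := isCompact_Icc.prod (isCompact_univ_pi fun _ => isCompact_Icc)
  have hC : IsCompact ((f ∘ g) '' A) :=
    hA.image_of_continuousOn (hfc.comp hgc.continuousOn hgK)
  obtain ⟨F, hF⟩ := hC.elim_finite_subcover (fun i => ball (B.d i) π) (fun _ => isOpen_ball)
    (by
      rintro _ ⟨a, ha, rfl⟩
      obtain ⟨i, hi⟩ := B.dense _ (hf (hgK a ha)) π hπ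
      exact mem_iUnion.2 ⟨i, by rwa [mem_ball, dist_eq_norm]⟩)
  refine ⟨F.sup id + 1, fun t u ht0 ht1 hu => ?_⟩
  obtain ⟨i, hiF, hi⟩ := mem_iUnion₂.1 (hF ⟨(t, fun j => u j.1), ⟨⟨ht0, ht1⟩, fun j _ => hu j.1⟩, rfl⟩)
  refine ⟨i, Nat.lt_succ_of_le (Finset.le_sup (f := id) hiF), ?_⟩
  rw [mem_ball, dist_eq_norm] at hi
  have e1 : g (t, fun j => u j.1) = boxPt B.y p e σ t s u := by
    simp only [g, boxPt]
    refine congrArg _ (Finset.sum_congr rfl fun j hj => ?_)
    simp only [ext, dif_pos hj]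
  rwa [Function.comp_apply, e1] at hi

end Vale.Agent.P079.Full
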