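import Vale.Agent.P079.Full.Pins
import Vale.Agent.P079.Aus

/-!
P079 full: retained alternating chains contradict weak compactness of balls.

A greedy subsequence gives vectors of bounded norm on which all chosen functionals stay large;
a weak cluster of them would be seen by functionals that tend pointwise to zero on the span.
-/

open Set Filter Topology Metric

namespace Vale.Agent.P079.Full

open Vale.Agent.P079

universe u

variable {X : Type u} [NormedAddCommGroup X] [NormedSpace ℝ X]

/-- The indices of a chain, newest first. -/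
def chainList (g : ℕ → ℕ) : ℕ → List ℕ
  | 0 => [g 0]
  | k + 1 => g (k + 1) :: chainList g k

lemma chainList_eq (g : ℕ → ℕ) : ∀ k, ∃ r, chainList g k = g k :: r
  | 0 => ⟨[], rfl⟩
  | k + 1 => ⟨chainList g k, rfl⟩

lemma mem_chainList (g : ℕ → ℕ) : ∀ k a, a ∈ chainList g k → ∃ i ≤ k, a = g i
  | 0, a, h => ⟨0, le_rfl, by simpa [chainList] using h⟩
  | k + 1, a, h => by
    rcases List.mem_cons.1 h with rfl | h
    · exact ⟨k + 1, le_rfl, rfl⟩
    · obtain ⟨i, hi, rfl⟩ := mem_chainList g k a h
      exact ⟨i, by omega, rfl⟩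

lemma chainList_congr {g g' : ℕ → ℕ} : ∀ k, (∀ i ≤ k, g i = g' i) →
    chainList g k = chainList g' k
  | 0, h => by simp [chainList, h 0 le_rfl]
  | k + 1, h => by
    simp only [chainList]
    rw [h (k + 1) le_rfl, chainList_congr k fun i hi => h i (by omega)]

lemma pairwise_chainList {g : ℕ → ℕ} : ∀ k, (∀ i j, i < j → j ≤ k → g i < g j) →
    (chainList g k).Pairwise (· > ·)
  | 0, _ => by simp [chainList]
  | k + 1, h => by
    refine List.pairwise_cons.2
      ⟨fun a ha => ?_, pairwise_chainList k fun i j hij hj => h i j hij (by omega)⟩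
    obtain ⟨i, hi, rfl⟩ := mem_chainList g k a ha
    exact h i (k + 1) (by omega) le_rfl

variable {y : X} {K : Set X}

lemma norm_comp_apply_le (L : ℕ → ℕ → (Sp y K →L[ℝ] Sp y K)) (hL : ∀ a b, ‖L a b‖ ≤ 1) :
    ∀ l z, ‖comp L l z‖ ≤ ‖z‖
  | [], z => le_rfl
  | [_], z => le_rfl
  | b :: a :: r, z => by
    refine (norm_comp_apply_le L hL (a :: r) (L a b z)).trans ?_
    exact ((L a b).le_opNorm z).trans (mul_le_of_le_one_left (norm_nonneg _) (hL a b))

lemma comp_chainList_succ (L : ℕ → ℕ → (Sp y K →L[ℝ] Sp y K)) (g : ℕ → ℕ) (k : ℕ) :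
    comp L (chainList g (k + 1)) = (comp L (chainList g k)).comp (L (g k) (g (k + 1))) := by
  obtain ⟨r, hr⟩ := chainList_eq g k
  rw [show chainList g (k + 1) = g (k + 1) :: chainList g k from rfl, hr]
  simp only [comp]

/-- Functionals of norm at most one that tend to zero on a dense set of `K - y` tend to zero on
the closed span. -/
theorem tendsto_zero_on_span (d : ℕ → X) (hd : ∀ q ∈ K, ∀ ε > 0, ∃ i, ‖q - d i‖ < ε)
    (G : ℕ → StrongDual ℝ X) (hG : ∀ n, ‖G n‖ ≤ 1)
    (h : ∀ i, Tendsto (fun n => G n (d i - y)) atTop (𝓝 0)) {z : X} (hz : z ∈ Sp y K) :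
    Tendsto (fun n => G n z) atTop (𝓝 0) := by
  have hG' : ∀ n w, |G n w| ≤ ‖w‖ := fun n w =>
    ((G n).le_opNorm w).trans (mul_le_of_le_one_left (norm_nonneg _) (hG n))
  have happrox : ∀ (s : Set X), (∀ w ∈ s, Tendsto (fun n => G n w) atTop (𝓝 0)) →
      ∀ w, (∀ ε > 0, ∃ v ∈ s, ‖w - v‖ < ε) → Tendsto (fun n => G n w) atTop (𝓝 0) := by
    intro s hs w hw
    refine Metric.tendsto_nhds.2 fun ε hε => ?_
    obtain ⟨v, hv, hvw⟩ := hw (ε / 2) (by linarith)
    filter_upwards [Metric.tendsto_nhds.1 (hs v hv) (ε / 2) (by linarith)] with n hn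
    rw [Real.dist_eq, sub_zero] at hn ⊢
    calc |G n w| = |G n (w - v) + G n v| := by rw [← map_add, sub_add_cancel]
      _ ≤ |G n (w - v)| + |G n v| := abs_add_le _ _
      _ < ε := by linarith [hG' n (w - v)]
  have hspan : ∀ w ∈ Submodule.span ℝ ((fun q => q - y) '' K),
      Tendsto (fun n => G n w) atTop (𝓝 0) := by
    intro w hw
    induction hw using Submodule.span_induction with
    | mem w hw =>
      obtain ⟨q, hq, rfl⟩ := hw
      refine happrox (range fun i => d i - y) (by rintro _ ⟨i, rfl⟩; exact h i) _ fun ε hε => ?_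
      obtain ⟨i, hi⟩ := hd q hq ε hε
      exact ⟨_, ⟨i, rfl⟩, by simpa using hi⟩
    | zero => simp
    | add a b _ _ ha hb => simpa using ha.add hb
    | smul r a _ ha => simpa using ha.const_mul r
  refine happrox _ hspan z fun ε hε => ?_
  obtain ⟨v, hv, hvw⟩ := Metric.mem_closure_iff.1
    (show z ∈ closure (Submodule.span ℝ ((fun q => q - y) '' K) : Set X) by
      simpa [Sp, ← Submodule.topologicalClosure_coe] using hz) ε hε
  exact ⟨v, hv, by rwa [← dist_eq_norm]⟩

theorem finalPin [CompleteSpace X] : FinalPin X := by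
  intro hX T K B C
  classical
  set D := diam K with hDdef
  have hD : 0 < D := B.diam_pos
  set H := Sp B.y K with hH
  have hball : FipOn (closedBall (0 : X) D) := fipOn_of_isCompact_weak
    (isCompact_weak_of_reflexive hX isClosed_closedBall isBounded_closedBall
      (convex_closedBall _ _))
  set e : ℕ → H := fun n => vec B.y (C.x_mem n) with he
  have heD : ∀ n, ‖e n‖ ≤ D := fun n => norm_sub_le_diam B.good.bdd (C.x_mem n) B.y_mem
  set G : ℕ → StrongDual ℝ H := fun n => (C.G n).comp H.subtypeL with hGdef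
  have hGle : ∀ n z, |G n z| ≤ ‖z‖ := fun n z =>
    ((C.G n).le_opNorm (z : X)).trans (mul_le_of_le_one_left (norm_nonneg _) (C.G_norm n))
  have hweak : ∀ φ : StrongDual ℝ H, Tendsto (fun n => φ (e n)) atTop (𝓝 0) := by
    intro φ
    obtain ⟨φ', hφ', -⟩ := exists_extension_norm_eq (𝕜 := ℝ) H φ
    refine (C.weak φ').congr fun n => ?_
    exact hφ' (e n)
  set a : ℕ → ℝ := fun k => D * (1 / 2 + (1 / 2) ^ (k + 2)) with ha
  have ha_le : ∀ k, a k ≤ D * (3 / 4) := fun k => by
    have : (1 / 2 : ℝ) ^ (k + 2) ≤ (1 / 2) ^ 2 :=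
      pow_le_pow_of_le_one (by norm_num) (by norm_num) (by omega)
    simp only [ha]; nlinarith
  set d : ℕ → ℝ := fun k => D * (1 / 2) ^ (k + 4) with hd
  have hd0 : ∀ k, 0 < d k := fun k => by positivity
  have had : ∀ k, a (k + 1) = a k - 2 * d k := fun k => by simp only [ha, hd]; ring
  let Inv : ℕ → (ℕ → ℕ) → Prop := fun k g =>
    (∀ i j, i < j → j ≤ k → g i < g j) ∧ k ≤ g k ∧
      ∀ j ≤ k, a k ≤ |G (g j) (comp C.L (chainList g k) (e (g k)))|
  have hstart : Inv 0 fun _ => 0 := by
    refine ⟨fun i j h1 h2 => by omega, le_rfl, fun j hj => ?_⟩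
    have h := C.retain 0 [] List.Pairwise.nil (fun a ha => by simp at ha)
    have e1 := ha_le 0
    simp only [chainList, comp, ContinuousLinearMap.id_apply] at h ⊢
    exact le_trans (by linarith) (h.trans (le_abs_self _))
  have hnext : ∀ k g, Inv k g → ∃ g', Inv (k + 1) g' ∧ ∀ i ≤ k, g' i = g i := by
    rintro k g ⟨hmono, hkg, hg⟩
    set W := comp C.L (chainList g k) with hW
    have h2 : ∀ᶠ n in atTop, ∀ j ∈ Finset.range (k + 1), |G (g j) (W (e n))| < d k := by
      rw [eventually_all_finset]
      intro j _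
      have h := (hweak ((G (g j)).comp W)).abs
      simp only [abs_zero] at h
      exact h.eventually (gt_mem_nhds (hd0 k))
    have h5 : ∀ᶠ n in atTop, |G n (W (e (g k)))| < D / 100 := by
      have h := (tendsto_zero_on_span B.d B.dense C.G C.G_norm C.coarse (W (e (g k))).2).abs
      simp only [abs_zero] at h
      exact h.eventually (gt_mem_nhds (by positivity))
    obtain ⟨n, n1, n2, n5⟩ := ((eventually_gt_atTop (g k)).and (h2.and h5)).exists
    set g' := Function.update g (k + 1) n with hg'
    have hsame : ∀ i ≤ k, g' i = g i := fun i hi => Function.update_of_ne (by omega) _ _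
    have hnew : g' (k + 1) = n := Function.update_self _ _ _
    have hlast : ∀ i ≤ k, g i ≤ g k := fun i hi => by
      rcases hi.eq_or_lt with rfl | h
      · exact le_rfl
      · exact (hmono i k h le_rfl).le
    refine ⟨g', ⟨fun i j hij hj => ?_, by rw [hnew]; omega, fun j hj => ?_⟩, hsame⟩
    · rw [hsame i (by omega)]
      rcases Nat.le_succ_iff.1 hj with h | rfl
      · rw [hsame j h]; exact hmono i j hij h
      · rw [hnew]; exact (hlast i (by omega)).trans_lt n1
    have hop : comp C.L (chainList g' (k + 1)) = W.comp (C.L (g k) n) := by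
      rw [comp_chainList_succ, chainList_congr k hsame, hsame k le_rfl, hnew]
    rw [hop, hnew]
    change a (k + 1) ≤ |G (g' j) (W (C.L (g k) n (e n)))|
    set err := C.L (g k) n (e n) - (e n - e (g k)) with herr
    have hW1 : ‖W err‖ ≤ d k := by
      refine (norm_comp_apply_le C.L C.L_norm _ err).trans ?_
      have h3 := C.endpoint (g k) n n1
      rw [herr, ← Submodule.norm_coe]
      simp only [Submodule.coe_sub, he, vec, sub_sub_sub_cancel_right]
      refine h3.trans ?_
      simp only [← hDdef, hd]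
      rw [div_eq_mul_inv, one_div, inv_pow]
      have : (2 : ℝ) ^ (k + 4) ≤ 2 ^ (g k + 5) := pow_le_pow_right₀ (by norm_num) (by omega)
      exact mul_le_mul_of_nonneg_left (inv_anti₀ (by positivity) this) hD.le
    have hsplit : W (C.L (g k) n (e n)) = W (e n) - W (e (g k)) + W err := by
      rw [herr, map_sub, map_sub]; abel
    have herrG : ∀ i, |G i (W err)| ≤ d k := fun i => (hGle i _).trans hW1
    rw [hsplit, map_add, map_sub]
    rcases Nat.le_succ_iff.1 hj with hjk | rfl
    · rw [hsame j hjk]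
      have e1 := hg j hjk
      have e2 := (n2 j (Finset.mem_range.2 (by omega))).le
      have e3 := herrG (g j)
      rw [had]
      rw [abs_le] at e2 e3
      rcases le_or_gt 0 (G (g j) (W (e (g k)))) with hs | hs
      · rw [abs_of_nonneg hs] at e1
        rw [le_abs]; right; linarith
      · rw [abs_of_neg hs] at e1
        rw [le_abs]; left; linarith
    · rw [hnew]
      have r1 := C.retain n (chainList g k) (pairwise_chainList k hmono) fun b hb => by
        obtain ⟨i, hi, rfl⟩ := mem_chainList g k b hb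
        exact (hlast i hi).trans_lt n1
      have e2 : |G n (W (e (g k)))| ≤ D / 100 := n5.le
      have e1 : 99 / 100 * D ≤ G n (W (e n)) := r1
      have e3 := herrG n
      rw [abs_le] at e2 e3
      have e4 := ha_le (k + 1)
      have e5 : d k ≤ D * (1 / 16) := by
        have : (1 / 2 : ℝ) ^ (k + 4) ≤ (1 / 2) ^ 4 :=
          pow_le_pow_of_le_one (by norm_num) (by norm_num) (by omega)
        simp only [hd]; nlinarith
      rw [le_abs]; left; linarith
  choose F hF hFsame using hnext
  let seq : (k : ℕ) → {g : ℕ → ℕ // Inv k g} := fun k => Nat.rec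
    ⟨_, hstart⟩ (fun k s => ⟨F k s.1 s.2, hF k s.1 s.2⟩) k
  have hagree : ∀ k m, k ≤ m → (seq m).1 k = (seq k).1 k := by
    intro k m hkm
    induction m, hkm using Nat.le_induction with
    | base => rfl
    | succ m hkm ih => exact (hFsame m (seq m).1 (seq m).2 k hkm).trans ih
  set g : ℕ → ℕ := fun k => (seq k).1 k with hg
  have hginv : ∀ k, Inv k g := by
    intro k
    have hag : ∀ i ≤ k, g i = (seq k).1 i := fun i hi => (hagree i k hi).symm
    obtain ⟨h1, h0, h2⟩ := (seq k).2
    refine ⟨fun i j hij hj => ?_, h0, fun j hj => ?_⟩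
    · rw [hag i (by omega), hag j hj]; exact h1 i j hij hj
    · rw [chainList_congr k hag, hag j hj, hag k le_rfl]; exact h2 j hj
  have hgt : Tendsto g atTop atTop :=
    tendsto_atTop_mono (fun k => (hginv k).2.1) tendsto_id
  set v : ℕ → X := fun N => (comp C.L (chainList g N) (e (g N)) : X) with hv
  have hvD : ∀ N, v N ∈ closedBall (0 : X) D := fun N => by
    rw [mem_closedBall_zero_iff]
    exact (norm_comp_apply_le C.L C.L_norm _ _).trans (heD _)
  obtain ⟨w, -, hw⟩ :=
    exists_wlim hball isClosed_closedBall (convex_closedBall _ _) (hyperfilter ℕ) hvD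
  have hwH : w ∈ H := hw H (Submodule.isClosed_topologicalClosure _) H.convex
    (Eventually.of_forall fun N => (comp C.L (chainList g N) (e (g N))).2)
  have hbig : ∀ j, D / 2 ≤ |C.G (g j) w| := by
    intro j
    refine ge_of_tendsto (hw.tendsto_apply (C.G (g j))).abs (Nat.hyperfilter_le_atTop ?_)
    refine eventually_atTop.2 ⟨j, fun N hN => ?_⟩
    refine le_trans ?_ ((hginv N).2.2 j hN)
    simp only [ha]; nlinarith [pow_pos (show (0 : ℝ) < 1 / 2 by norm_num) (N + 2)]
  have hlim := ((tendsto_zero_on_span B.d B.dense C.G C.G_norm C.coarse hwH).comp hgt).abs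
  simp only [abs_zero] at hlim
  obtain ⟨j, hj⟩ := (hlim.eventually (gt_mem_nhds (show (0 : ℝ) < D / 2 by positivity))).exists
  exact absurd (hbig j) (not_le.2 hj)

end Vale.Agent.P079.Full
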