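import Vale.Agent.P079.Full.Final

/-!
P079 full: the fixed point property of reflexive spaces from the blocks.
-/

open Set Filter Topology Metric

namespace Vale.Agent.P079.Full

open Vale.Agent.P079

universe u

variable {X : Type u} [NormedAddCommGroup X] [NormedSpace ℝ X] [CompleteSpace X]

theorem hasFPP_of_pins (hBase : BasePin X) (hBox : BoxPin X) (hStage : StagePin X)
    (hX : Function.Surjective (NormedSpace.inclusionInDoubleDual ℝ X)) : HasFPP X := by
  intro C hne hcl hbd hcv T hmaps hlip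
  have hfip : FipOn C := fipOn_of_isCompact_weak (isCompact_weak_of_reflexive hX hcl hbd hcv)
  obtain ⟨K, hKC, hK, hmin⟩ := exists_minimal hfip (T := T) ⟨hne, hcl, hbd, hcv, hmaps⟩
  have hT : ∀ x ∈ K, ∀ z ∈ K, ‖T x - T z‖ ≤ ‖x - z‖ := fun x hx z hz => by
    simpa [dist_eq_norm] using hlip.dist_le_mul x (hKC hx) z (hKC hz)
  by_contra hcon
  obtain ⟨x0, hx0⟩ := hK.nonempty
  have hD : 0 < diam K :=
    (norm_pos_iff.2 (sub_ne_zero.2 fun h => hcon ⟨x0, hKC hx0, h⟩)).trans_le
      (norm_sub_le_diam hK.bdd (hK.maps hx0) hx0)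
  obtain ⟨B⟩ := hBase T K (hfip.mono hKC) hK hmin hT hD
  obtain ⟨Ch⟩ := hStage hBox T K B
  exact finalPin hX T K B Ch

end Vale.Agent.P079.Full
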