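import Vale.Agent.P079.Full.StageData

/-!
P079 full, STAGE part 2: the operators on the finished streams and the retention property.
-/

open Set Filter Topology Metric

namespace Vale.Agent.P079.Full

open Vale.Agent.P079

universe u

variable {X : Type u} [NormedAddCommGroup X] [NormedSpace ℝ X] {T : X → X} {K : Set X}

omit [NormedSpace ℝ X] in
theorem top_bound (a : ℕ) : top K a = diam K * room a := by
  simp [top, room, div_eq_mul_inv]

theorem Data.tau_mono {B : Base T K} (P : Data B) {n a b : ℕ} (hab : a ≤ b) (hb : b ≤ n) :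
    P.τ n a ≤ P.τ n b := by
  induction b, hab using Nat.le_induction with
  | base => exact le_rfl
  | succ b hab ih => exact (ih (by omega)).trans (P.step n b (by omega)).tau_le

theorem Data.tau_le_top {B : Base T K} (P : Data B) {n : ℕ} (a : ℕ) (ha : a ≤ n) :
    P.τ n a ≤ top K n :=
  (P.tau_mono ha le_rfl).trans_eq (P.tau_top n)

theorem Data.N_anti {B : Base T K} (P : Data B) {n a b : ℕ} (hab : a ≤ b) (hb : b ≤ n) :
    P.N n b ≤ P.N n a := by
  induction b, hab using Nat.le_induction with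
  | base => exact le_rfl
  | succ b hab ih => exact (P.step n b (by omega)).N_le.trans (ih (by omega))

/-- The entries of the boxes. -/
def Data.e {B : Base T K} (P : Data B) : ℕ ⊕ ℕ → X := Sum.elim B.d P.x

theorem Data.eK {B : Base T K} (P : Data B) : ∀ i, P.e i ∈ K := by
  rintro (i | m)
  exacts [B.d_mem i, P.xK m]

/-- A box point of the finished streams. -/
noncomputable def Data.pt {B : Base T K} (P : Data B) (a b : ℕ) (t : ℝ) (s : Finset (ℕ ⊕ ℕ))
    (u : ℕ ⊕ ℕ → ℝ) : X :=
  boxPt B.y (P.x b) P.e (sig P.ρ a) t s u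

theorem Data.pt_mem {B : Base T K} (P : Data B) (a b : ℕ) {t : ℝ} {s : Finset (ℕ ⊕ ℕ)}
    {u : ℕ ⊕ ℕ → ℝ} (h1 : 0 ≤ t) (h2 : t ≤ 1 - room a) (hu : ∀ j, 0 ≤ u j ∧ u j ≤ 1) :
    P.pt a b t s u ∈ K :=
  boxPt_mem B.good.convex B.y_mem (P.xK b) (fun i _ => P.eK i) (fun i _ => P.sig_nonneg a i)
    (P.total a s) h1 h2 hu

theorem Data.pt_insert {B : Base T K} (P : Data B) (a b : ℕ) (t : ℝ) {s : Finset (ℕ ⊕ ℕ)}
    (u : ℕ ⊕ ℕ → ℝ) {i : ℕ ⊕ ℕ} (hi : i ∉ s) :
    P.pt a b t s u + sig P.ρ a i • (P.e i - B.y) =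
      P.pt a b t (insert i s) (Function.update u i 1) := by
  simp only [Data.pt, boxPt]
  have e : ∑ j ∈ s, (Function.update u i 1 j * sig P.ρ a j) • (P.e j - B.y) =
      ∑ j ∈ s, (u j * sig P.ρ a j) • (P.e j - B.y) :=
    Finset.sum_congr rfl fun j hj => by
      rw [Function.update_of_ne (fun h : j = i => hi (h ▸ hj))]
  rw [Finset.sum_insert hi, Function.update_self, one_mul, e]
  abel

/-- A functional of norm at most one that kills the dense prefix kills the images of boxes,
up to the sides of stage `n` and later that the box uses. -/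
theorem Data.image_le {B : Base T K} (P : Data B) {n a b : ℕ} (hab : a < b) (hbn : b < n)
    {φ : StrongDual ℝ X} (hφ : ‖φ‖ ≤ 1)
    (hk : ∀ i < P.N n a, |φ (B.d i - B.y)| ≤ P.τ n a) {t : ℝ} {s : Finset (ℕ ⊕ ℕ)}
    {u : ℕ ⊕ ℕ → ℝ} (h1 : 0 ≤ t) (h2 : t ≤ 1 - room a) (hu : ∀ j, 0 ≤ u j ∧ u j ≤ 1) {R : ℝ}
    (hR : ∑ m ∈ s.toRight.filter (n ≤ ·), P.ρ m a ≤ R) :
    |φ (P.f a (P.pt a b t s u) - B.y)| ≤ 3 * P.τ n a + R * diam K := by
  classical
  set s' := s.filter (fun i => ∀ m, i = Sum.inr m → m < n) with hs'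
  obtain ⟨i, hi, h⟩ := (P.step n a (hab.trans hbn)).cover b hab hbn t s' u h1 h2 hu
    (fun m hm => (Finset.mem_filter.1 hm).2 m rfl)
  have hd := norm_boxPt_sub_le (y := B.y) (p := P.x b) (e := P.e) (σ := sig P.ρ a) (D := diam K)
    (t := t) (u := u) (Finset.filter_subset _ s : s' ⊆ s) (fun j _ => P.sig_nonneg a j)
    (fun j _ => norm_sub_le_diam B.good.bdd (P.eK j) B.y_mem) hu
  have hsum : ∑ j ∈ s \ s', sig P.ρ a j ≤ R := by
    refine le_trans (le_of_eq ?_) hR
    rw [← Finset.toLeft_disjSum_toRight (u := s \ s'), Finset.sum_disjSum]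
    have h0 : (s \ s').toLeft = ∅ := Finset.eq_empty_of_forall_notMem fun j hj => by
      simp [Finset.mem_toLeft, hs'] at hj
    have h0' : (s \ s').toRight = s.toRight.filter (n ≤ ·) := by
      ext m; simp [Finset.mem_toRight, hs']; tauto
    rw [h0, h0', Finset.sum_empty, zero_add]
    refine Finset.sum_congr rfl fun m hm => ?_
    simp only [sig, Sum.elim_inr]
    rw [if_pos ((hab.trans hbn).trans_le (Finset.mem_filter.1 hm).2)]
  have hlip := (P.lip a _ (P.pt_mem a b (s := s) h1 h2 hu) _ (P.pt_mem a b (s := s') h1 h2 hu)).trans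
    (hd.trans (mul_le_mul_of_nonneg_right hsum diam_nonneg))
  have hb : ∀ v : X, |φ v| ≤ ‖v‖ := fun v => (φ.le_opNorm v).trans
    (mul_le_of_le_one_left (norm_nonneg _) hφ)
  have e : P.f a (P.pt a b t s u) - B.y =
      (P.f a (P.pt a b t s u) - P.f a (P.pt a b t s' u)) +
      (P.f a (P.pt a b t s' u) - B.d i) + (B.d i - B.y) := by abel
  rw [e, map_add, map_add]
  refine (abs_add_three _ _ _).trans ?_
  have h' : ‖P.f a (P.pt a b t s' u) - B.d i‖ ≤ 2 * P.τ n a := h
  linarith [hb (P.f a (P.pt a b t s u) - P.f a (P.pt a b t s' u)),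
    hb (P.f a (P.pt a b t s' u) - B.d i), hk i hi]

/-- One step of a chain keeps killing the dense prefix. -/
theorem Data.lift_kill {B : Base T K} (P : Data B) {n a b c : ℕ} (hbc : b < c) (hcn : c < n)
    (L : Sp B.y K →L[ℝ] Sp B.y K)
    (hL : ∀ (i : ℕ ⊕ ℕ) (φ : StrongDual ℝ X) (r : ℝ), 0 < sig P.ρ b i →
      (∀ (t : ℝ) (s : Finset (ℕ ⊕ ℕ)) (u : ℕ ⊕ ℕ → ℝ), 0 ≤ t → t ≤ 1 - room b →
        (∀ j, 0 ≤ u j ∧ u j ≤ 1) → i ∉ s →
        r * sig P.ρ b i ≤ φ (P.f b (P.pt b c t s u + sig P.ρ b i • (P.e i - B.y)) -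
          P.f b (P.pt b c t s u))) →
      r ≤ φ (L (vec B.y (P.eK i)) : X))
    (hba : b < a) (ha : a ≤ n) {φ : StrongDual ℝ X} (hφ : ‖φ‖ ≤ 1)
    (hk' : ∀ i < P.N n b, |φ (B.d i - B.y)| ≤ P.τ n b) {i : ℕ} (hi : i < P.N n a) :
    -P.τ n a ≤ φ (L (vec B.y (B.d_mem i)) : X) ∧ φ (L (vec B.y (B.d_mem i)) : X) ≤ P.τ n a := by
  have hbn : b < n := hbc.trans hcn
  have st := P.step n b hbn
  have htau := P.tau_mono (show b + 1 ≤ a from hba) ha
  have hN := P.N_anti (show b + 1 ≤ a from hba) ha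
  have hall : ∀ s : Finset (ℕ ⊕ ℕ),
      ∑ m ∈ s.toRight.filter (n ≤ ·), P.ρ m b ≤ P.ρ n b + P.R n b := by
    intro s
    rw [← Finset.sum_filter_add_sum_filter_not (s.toRight.filter (n ≤ ·)) (· = n)]
    refine add_le_add ?_ (P.tail n b hbn _ fun m hm => ?_)
    · refine (Finset.sum_le_sum_of_subset_of_nonneg (t := {n}) (fun m hm => ?_)
        fun m hm _ => ?_).trans_eq (Finset.sum_singleton _ _)
      · simp only [Finset.mem_filter] at hm; simp [hm.2]
      · rw [Finset.mem_singleton] at hm; rw [hm]; exact st.rho_pos.le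
    · simp only [Finset.mem_filter] at hm; omega
  have hiN : i < P.N n (b + 1) := hi.trans_le hN
  have key : ∀ φ' : StrongDual ℝ X, ‖φ'‖ ≤ 1 →
      (∀ j < P.N n b, |φ' (B.d j - B.y)| ≤ P.τ n b) →
      -P.τ n a ≤ φ' (L (vec B.y (B.d_mem i)) : X) := by
    intro φ' h1 h2
    refine le_trans (neg_le_neg htau) (hL (Sum.inl i) φ' _ (rad_pos b i) ?_)
    intro t s u ht1 ht2 hu his
    have b1 := abs_le.1 (P.image_le hbc hcn h1 h2 (s := s) ht1 ht2 hu (hall s))
    have b2 := abs_le.1 (P.image_le hbc hcn h1 h2 (s := insert (Sum.inl i) s)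
      (u := Function.update u (Sum.inl i) 1) ht1 ht2 (fun j => by
        rcases eq_or_ne j (Sum.inl i) with rfl | hj
        · simp
        · simpa [Function.update_of_ne hj] using hu j) (hall _))
    rw [← P.pt_insert b c t u his] at b2
    have := st.kill i hiN
    change -(P.τ n (b + 1)) * rad b i ≤ _
    simp only [Data.pt, map_sub] at b1 b2 ⊢
    linarith
  refine ⟨key φ hφ hk', ?_⟩
  have := key (-φ) (by rwa [norm_neg]) fun j hj => by rw [neg_apply, abs_neg]; exact hk' j hj
  simp only [neg_apply] at this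
  linarith

/-- One step of a chain keeps reading the new point. -/
theorem Data.lift_read {B : Base T K} (P : Data B) {n a b c : ℕ} (hbc : b < c) (hcn : c < n)
    (L : Sp B.y K →L[ℝ] Sp B.y K)
    (hL : ∀ (i : ℕ ⊕ ℕ) (φ : StrongDual ℝ X) (r : ℝ), 0 < sig P.ρ b i →
      (∀ (t : ℝ) (s : Finset (ℕ ⊕ ℕ)) (u : ℕ ⊕ ℕ → ℝ), 0 ≤ t → t ≤ 1 - room b →
        (∀ j, 0 ≤ u j ∧ u j ≤ 1) → i ∉ s →
        r * sig P.ρ b i ≤ φ (P.f b (P.pt b c t s u + sig P.ρ b i • (P.e i - B.y)) -
          P.f b (P.pt b c t s u))) →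
      r ≤ φ (L (vec B.y (P.eK i)) : X))
    (hba : b < a) (ha : a ≤ n) {φ : StrongDual ℝ X} (hφ : ‖φ‖ ≤ 1)
    (hk' : ∀ i < P.N n b, |φ (B.d i - B.y)| ≤ P.τ n b)
    (hr' : diam K - P.τ n b ≤ φ (P.x n - B.y)) :
    diam K - P.τ n a ≤ φ (L (vec B.y (P.xK n)) : X) := by
  have hbn : b < n := hbc.trans hcn
  have st := P.step n b hbn
  have htau := P.tau_mono (show b + 1 ≤ a from hba) ha
  have hN := P.N_anti (show b + 1 ≤ a from hba) ha
  have hφ1 : ∀ v : X, |φ v| ≤ ‖v‖ := fun v =>
    (φ.le_opNorm v).trans (mul_le_of_le_one_left (norm_nonneg _) hφ)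
  have htail : ∀ s : Finset (ℕ ⊕ ℕ), Sum.inr n ∉ s →
      ∑ m ∈ s.toRight.filter (n ≤ ·), P.ρ m b ≤ P.R n b := fun s hns =>
    P.tail n b hbn _ fun m hm => by
      obtain ⟨h1, h2⟩ := Finset.mem_filter.1 hm
      exact lt_of_le_of_ne h2 fun h => hns (h ▸ Finset.mem_toRight.1 h1)
  refine le_trans (by linarith) (hL (Sum.inr n) φ (diam K - P.τ n (b + 1)) ?_ ?_)
  · simp only [sig, Sum.elim_inr, if_pos hbn]; exact st.rho_pos
  intro t s u ht1 ht2 hu his
  have hσ : sig P.ρ b (Sum.inr n) = P.ρ n b := by simp [sig, hbn]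
  have hb := abs_le.1 (P.image_le hbc hcn hφ hk' (s := s) ht1 ht2 hu (htail s his))
  -- the top face is a combination giving `x n` weight `ρ n b`
  set ρ0 := P.ρ n b with hρ0
  have hρp : 0 < ρ0 := st.rho_pos
  have hins : ∑ j ∈ s, sig P.ρ b j + ρ0 ≤ room b := by
    have := P.total b (insert (Sum.inr n) s)
    rw [Finset.sum_insert his, hσ] at this
    linarith
  have hroom : room b < 1 := lt_of_le_of_lt (room_le b) (by norm_num)
  have hρ1 : ρ0 < 1 := by
    linarith [Finset.sum_nonneg (s := s) fun j _ => P.sig_nonneg b j]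
  set q := boxPt B.y (P.x c) P.e (fun j => sig P.ρ b j / (1 - ρ0)) (t / (1 - ρ0)) s u with hq
  have hqK : q ∈ K := by
    refine boxPt_mem B.good.convex B.y_mem (P.xK c) (fun j _ => P.eK j)
      (fun j _ => div_nonneg (P.sig_nonneg b j) (by linarith))
      (S := (room b - ρ0) / (1 - ρ0)) ?_ (div_nonneg ht1 (by linarith)) ?_ hu
    · rw [← Finset.sum_div]
      exact div_le_div_of_nonneg_right (by linarith) (by linarith)
    · rw [one_sub_div (by linarith : (1 - ρ0) ≠ 0)]
      exact div_le_div_of_nonneg_right (by linarith) (by linarith)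
  have htopK := P.pt_mem b c (s := insert (Sum.inr n) s)
    (u := Function.update u (Sum.inr n) 1) ht1 ht2 (fun j => by
      rcases eq_or_ne j (Sum.inr n) with rfl | hj
      · simp
      · simpa [Function.update_of_ne hj] using hu j)
  rw [← P.pt_insert b c t u his, hσ] at htopK
  have htop : P.pt b c t s u + ρ0 • (P.e (Sum.inr n) - B.y) - P.x n =
      (1 - ρ0) • (q - P.x n) := by
    have hne : (1 - ρ0) ≠ 0 := by linarith
    have e1 : ∀ j, (1 - ρ0) * (u j * (sig P.ρ b j / (1 - ρ0))) = u j * sig P.ρ b j := fun j => by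
      field_simp
    have e2 : (1 - ρ0) * (t / (1 - ρ0)) = t := mul_div_cancel₀ t hne
    simp only [hq, Data.pt, boxPt, smul_sub, smul_add, Finset.smul_sum, smul_smul, e1, e2]
    simp only [Data.e, Sum.elim_inr]
    module
  have hfix : ‖P.f b (P.pt b c t s u + ρ0 • (P.e (Sum.inr n) - B.y)) - P.x n‖ ≤
      (1 - ρ0) * diam K + P.τ n b := by
    refine (P.fix b _ htopK _ (P.xK n)).trans (add_le_add ?_ ?_)
    · rw [htop, norm_smul_of_nonneg (by linarith)]
      exact mul_le_mul_of_nonneg_left (norm_sub_le_diam B.good.bdd hqK (P.xK n))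
        (by linarith)
    · exact (P.defect n b hbn).trans (P.tau_mono (Nat.zero_le b) hbn.le)
  have hf := abs_le.1 ((hφ1 _).trans hfix)
  have hkeep := st.keep
  rw [hσ]
  simp only [Data.pt, map_sub] at hb hf hr' ⊢
  linarith

theorem stagePin : StagePin X := by
  intro hbox T K B
  obtain ⟨P⟩ := exists_data B
  set D := diam K with hD
  have hdense : ∀ a, ∀ q ∈ K, ∀ ε > 0, ∃ i, 0 < sig P.ρ a i ∧ ‖q - P.e i‖ < ε := fun a q hq ε hε => by
    obtain ⟨i, hi⟩ := B.dense q hq ε hε
    exact ⟨Sum.inl i, rad_pos a i, hi⟩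
  choose L hL1 hL2 hL3 using fun a b : ℕ =>
    hbox K B.good.closed B.good.bdd B.good.convex B.fip (P.f a) (P.maps a) (P.lip a) B.y (P.x b)
      B.y_mem (P.xK b) P.e P.eK (sig P.ρ a) (P.sig_nonneg a) (hdense a) (room a) (room_pos a)
      (lt_of_le_of_lt (room_le a) (by norm_num)) (P.total a)
  have hφ1 : ∀ {φ : StrongDual ℝ X}, ‖φ‖ ≤ 1 → ∀ v : X, |φ v| ≤ ‖v‖ := fun hφ v =>
    (ContinuousLinearMap.le_opNorm _ v).trans (mul_le_of_le_one_left (norm_nonneg _) hφ)
  -- operator norm of a chain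
  have hcomp : ∀ l : List ℕ, ‖comp L l‖ ≤ 1 := by
    intro l
    induction l with
    | nil => exact ContinuousLinearMap.norm_id_le
    | cons b r ih =>
      cases r with
      | nil => exact ContinuousLinearMap.norm_id_le
      | cons a r' =>
        exact (ContinuousLinearMap.opNorm_comp_le _ _).trans
          (mul_le_one₀ ih (norm_nonneg _) (hL1 a b))
  -- each chain below `a` kills the dense prefix of level `a` and reads the new point
  have main : ∀ (n : ℕ) (l : List ℕ), l.Pairwise (· > ·) → (∀ c ∈ l, c < n) →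
      ∀ a ≤ n, (∀ c ∈ l.head?, c ≤ a) →
      (∀ i < P.N n a, |P.G n (comp L l (vec B.y (B.d_mem i)) : X)| ≤ P.τ n a) ∧
      D - P.τ n a ≤ P.G n (comp L l (vec B.y (P.xK n)) : X) := by
    intro n l
    induction l with
    | nil =>
      intro _ _ a ha _
      have h := P.tau_mono (Nat.zero_le a) ha
      exact ⟨fun i hi => (P.G_kill n i (hi.trans_le (P.N_anti (Nat.zero_le a) ha))).trans h,
        le_trans (by linarith) (P.G_big n)⟩
    | cons c r ih =>
      intro hl hlt a ha hhead
      have hca : c ≤ a := hhead c (by simp)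
      cases r with
      | nil =>
        have h := P.tau_mono (Nat.zero_le a) ha
        exact ⟨fun i hi => (P.G_kill n i (hi.trans_le (P.N_anti (Nat.zero_le a) ha))).trans h,
          le_trans (by linarith) (P.G_big n)⟩
      | cons b r' =>
        have hbc : b < c := (List.pairwise_cons.1 hl).1 b (by simp)
        have hcn : c < n := hlt c (by simp)
        have hbn : b < n := hbc.trans hcn
        obtain ⟨hk, hr⟩ := ih (List.pairwise_cons.1 hl).2
          (fun q hq => hlt q (List.mem_cons_of_mem _ hq)) b hbn.le (fun q hq => by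
            rw [List.head?_cons, Option.mem_some_iff] at hq
            exact hq ▸ le_rfl)
        -- the functional of the shorter chain, extended to the whole space
        set g : Sp B.y K →L[ℝ] ℝ :=
          ((P.G n).comp (Sp B.y K).subtypeL).comp (comp L (b :: r')) with hg
        obtain ⟨φ, hφeq, hφn⟩ := exists_extension_norm_eq (Sp B.y K) g
        have hφ : ‖φ‖ ≤ 1 := by
          rw [hφn]
          refine (ContinuousLinearMap.opNorm_comp_le _ _).trans (mul_le_one₀ ?_ (norm_nonneg _)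
            (hcomp _))
          exact (ContinuousLinearMap.opNorm_comp_le _ _).trans (mul_le_one₀ (P.G_norm n)
            (norm_nonneg _) (Submodule.norm_subtypeL_le _))
        have hval : ∀ v : Sp B.y K,
            (P.G n) (comp L (c :: b :: r') v : X) = φ (L b c v : X) := fun v => by
          rw [hφeq]; rfl
        have hk' : ∀ i < P.N n b, |φ (B.d i - B.y)| ≤ P.τ n b := fun i hi => by
          rw [show φ (B.d i - B.y) = φ ((vec B.y (B.d_mem i) : Sp B.y K) : X) from rfl, hφeq]
          exact hk i hi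
        have hr' : D - P.τ n b ≤ φ (P.x n - B.y) := by
          rw [show φ (P.x n - B.y) = φ ((vec B.y (P.xK n) : Sp B.y K) : X) from rfl, hφeq]
          exact hr
        exact ⟨fun i hi => by
            rw [hval]
            exact abs_le.2 ((P.lift_kill hbc hcn (L b c) (hL2 b c) (hbc.trans_le hca) ha hφ hk' hi)),
          by rw [hval]; exact P.lift_read hbc hcn (L b c) (hL2 b c) (hbc.trans_le hca) ha hφ hk' hr'⟩
  refine ⟨{ x := P.x, x_mem := P.xK, G := P.G, L := L, G_norm := P.G_norm, L_norm := hL1,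
            weak := ?_, coarse := ?_, endpoint := ?_, retain := ?_ }⟩
  · refine B.tests P.x P.xK fun i => squeeze_zero_norm' ?_ tendsto_one_div_add_atTop_nhds_zero_nat
    exact eventually_atTop.2 ⟨i, fun n hn => P.weak n i hn⟩
  · intro i
    have h2 : Tendsto (fun n : ℕ => top K n) atTop (𝓝 0) := by
      simp only [top]
      have h := (tendsto_pow_atTop_nhds_zero_of_lt_one (r := (1 / 2 : ℝ)) (by norm_num)
        (by norm_num)).const_mul (diam K / 2 ^ 9)
      rw [mul_zero] at h
      refine h.congr fun n => ?_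
      rw [pow_add, one_div, inv_pow]
      field_simp
    refine squeeze_zero_norm' (eventually_atTop.2 ⟨i + 1, fun n hn => ?_⟩) h2
    exact (P.G_kill n i (lt_of_lt_of_le (lt_of_lt_of_eq hn (P.N_top n).symm)
      (P.N_anti (Nat.zero_le n) le_rfl))).trans (P.tau_le_top 0 (Nat.zero_le n))
  · intro a b hab
    set S := room a with hS
    have hS0 : 0 < S := room_pos a
    have hS2 : S ≤ 1 / 2 := (room_le a).trans (by norm_num)
    have hup : ∀ ψ : StrongDual ℝ X, ‖ψ‖ ≤ 1 →
        ψ (P.x b - P.x a) - D / 2 ^ (a + 5) ≤ ψ (L a b (vec B.y (P.xK b)) : X) := by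
      intro ψ hψ
      refine hL3 a b ψ _ fun s u hu => ?_
      have hW : ∑ i ∈ s, sig P.ρ a i ≤ S := P.total a s
      have hz0 : ‖P.pt a b 0 s u - B.y‖ ≤ S * D := by
        have h := norm_boxPt_sub_le (p := P.x b) (e := P.e) (y := B.y) (t := 0) (u := u)
          (D := D) (Finset.empty_subset s) (fun j _ => P.sig_nonneg a j)
          (fun j _ => norm_sub_le_diam B.good.bdd (P.eK j) B.y_mem) hu
        simp only [Finset.sdiff_empty] at h
        have e : boxPt B.y (P.x b) P.e (sig P.ρ a) 0 (∅ : Finset (ℕ ⊕ ℕ)) u = B.y := by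
          simp [boxPt]
        rw [e] at h
        exact h.trans (mul_le_mul_of_nonneg_right hW diam_nonneg)
      have hz1 : ‖P.pt a b (1 - S) s u - P.x b‖ ≤ 2 * S * D := by
        have h := norm_boxPt_sub_le (p := P.x b) (e := P.e) (y := B.y) (t := 1 - S) (u := u)
          (D := D) (Finset.empty_subset s) (fun j _ => P.sig_nonneg a j)
          (fun j _ => norm_sub_le_diam B.good.bdd (P.eK j) B.y_mem) hu
        simp only [Finset.sdiff_empty] at h
        have e : boxPt B.y (P.x b) P.e (sig P.ρ a) (1 - S) (∅ : Finset (ℕ ⊕ ℕ)) u =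
            P.x b + S • (B.y - P.x b) := by
          simp only [boxPt, Finset.sum_empty, add_zero]; module
        rw [e] at h
        refine (norm_sub_le_norm_sub_add_norm_sub _ (P.x b + S • (B.y - P.x b)) _).trans ?_
        rw [add_sub_cancel_left, norm_smul_of_nonneg hS0.le]
        have h' := h.trans (mul_le_mul_of_nonneg_right hW diam_nonneg)
        have := mul_le_mul_of_nonneg_left (norm_sub_le_diam B.good.bdd B.y_mem (P.xK b)) hS0.le
        simp only [Data.pt]
        linarith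
      have hm0 := P.pt_mem a b (s := s) (t := 0) le_rfl (by linarith) hu
      have hm1 := P.pt_mem a b (s := s) (t := 1 - S) (by linarith) le_rfl hu
      have hf0 : ‖P.f a (P.pt a b 0 s u) - P.x a‖ ≤ 2 * (S * D) := by
        refine (norm_sub_le_norm_sub_add_norm_sub _ (P.f a B.y) _).trans ?_
        linarith [(P.lip a _ hm0 _ B.y_mem).trans hz0, P.near a, top_bound (K := K) a, hD]
      have hf1 : ‖P.f a (P.pt a b (1 - S) s u) - P.x b‖ ≤ 3 * (S * D) := by
        refine (P.fix a _ hm1 _ (P.xK b)).trans ?_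
        have h4 := (P.defect b a hab).trans (P.tau_le_top 0 (Nat.zero_le b))
        have h5 : top K b ≤ top K a := by
          simp only [top]
          exact div_le_div_of_nonneg_left diam_nonneg (by positivity)
            (pow_le_pow_right₀ one_le_two (by omega))
        linarith [hz1, top_bound (K := K) a, hD]
      have hdiff : ψ (P.x b - P.x a) - 5 * (S * D) ≤
          ψ (P.f a (P.pt a b (1 - S) s u) - P.f a (P.pt a b 0 s u)) := by
        have e : P.x b - P.x a = (P.f a (P.pt a b (1 - S) s u) - P.f a (P.pt a b 0 s u)) +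
            ((P.f a (P.pt a b 0 s u) - P.x a) - (P.f a (P.pt a b (1 - S) s u) - P.x b)) := by abel
        rw [e, map_add, map_sub ψ (P.f a (P.pt a b 0 s u) - P.x a)]
        linarith [(abs_le.1 ((hφ1 hψ _).trans hf0)).2, (abs_le.1 ((hφ1 hψ _).trans hf1)).1]
      have hp5 : D / 2 ^ (a + 5) = 16 * (S * D) := by
        rw [hS, room, show a + 9 = a + 5 + 4 by ring, pow_add]; field_simp; ring
      have hx : |ψ (P.x b - P.x a)| ≤ D :=
        (hφ1 hψ _).trans (norm_sub_le_diam B.good.bdd (P.xK b) (P.xK a))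
      refine le_trans ?_ hdiff
      rw [hp5]
      nlinarith [abs_le.1 hx, mul_nonneg hS0.le (diam_nonneg (s := K))]
    obtain ⟨ψ, hψ, hψv⟩ := exists_dual_vector'' ℝ
      ((L a b (vec B.y (P.xK b)) : X) - (P.x b - P.x a))
    have h := hup (-ψ) (by rwa [norm_neg])
    simp only [RCLike.ofReal_real_eq_id, id, map_sub, neg_apply] at h hψv ⊢
    linarith
  · intro n l hl hln
    have h : D - P.τ n n ≤ P.G n (comp L l (vec B.y (P.xK n)) : X) :=
      (main n l hl hln n le_rfl fun c hc => (hln c (List.mem_of_mem_head? hc)).le).2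
    rw [P.tau_top n] at h
    have : top K n ≤ D / 100 := by
      simp only [top]
      exact div_le_div_of_nonneg_left diam_nonneg (by norm_num)
        (le_trans (by norm_num) (pow_le_pow_right₀ one_le_two (show 9 ≤ n + 9 by omega)))
    linarith

end Vale.Agent.P079.Full
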