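import Vale.Agent.P079.Full.Main
import Vale.Agent.P079.Full.Base
import Vale.Agent.P079.Full.Box
import Vale.Agent.P079.Full.Stage

/-!
P079 full: every reflexive Banach space has the fixed point property.
-/

namespace Vale.Agent.P079.Full

open Vale.Agent.P079

universe u

variable {X : Type u} [NormedAddCommGroup X] [NormedSpace ℝ X] [CompleteSpace X]

theorem hasFPP_of_reflexive
    (hX : Function.Surjective (NormedSpace.inclusionInDoubleDual ℝ X)) : HasFPP X :=
  hasFPP_of_pins basePin boxPin stagePin hX

end Vale.Agent.P079.Full
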