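import Vale.Agent.P079.Full.Pins

/-!
P079 full, STAGE part 1: the sequence, the fine maps, the slot radii and the precisions.
The dense directions have fixed radii; stage `n` chooses, from the top level down, the slot radius
of the new point, then the precision with which images of boxes must be covered by dense points.
-/

open Set Filter Topology Metric

namespace Vale.Agent.P079.Full

open Vale.Agent.P079

universe u v

variable {X : Type u} [NormedAddCommGroup X] [NormedSpace ℝ X] {T : X → X} {K : Set X}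

theorem boxPt_mem {ι : Type v} (hK : Convex ℝ K) {y p : X} (hy : y ∈ K) (hp : p ∈ K) {e : ι → X}
    {σ : ι → ℝ} {s : Finset ι} (he : ∀ i ∈ s, e i ∈ K) (hσ : ∀ i ∈ s, 0 ≤ σ i) {S : ℝ}
    (hS : ∑ i ∈ s, σ i ≤ S) {t : ℝ} (ht : 0 ≤ t) (hts : t ≤ 1 - S) {u : ι → ℝ}
    (hu : ∀ i, 0 ≤ u i ∧ u i ≤ 1) : boxPt y p e σ t s u ∈ K := by
  have hW : ∑ i ∈ s, u i * σ i ≤ S :=
    (Finset.sum_le_sum fun i hi => mul_le_of_le_one_left (hσ i hi) (hu i).2).trans hS
  let w : Option (Option ι) → ℝ := fun o =>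
    o.elim (1 - t - ∑ i ∈ s, u i * σ i) fun o' => o'.elim t fun i => u i * σ i
  let q : Option (Option ι) → X := fun o => o.elim y fun o' => o'.elim p e
  have h1 : ∑ o ∈ (s.insertNone).insertNone, w o = 1 := by
    rw [Finset.sum_insertNone, Finset.sum_insertNone]
    simp [w]
  have h2 : ∑ o ∈ (s.insertNone).insertNone, w o • q o = boxPt y p e σ t s u := by
    rw [Finset.sum_insertNone, Finset.sum_insertNone]
    simp only [w, q, Option.elim, boxPt, smul_sub, Finset.sum_sub_distrib, ← Finset.sum_smul]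
    module
  rw [← h2]
  refine hK.sum_mem (fun o ho => ?_) h1 fun o ho => ?_
  · rcases o with _ | _ | i
    · simp only [w, Option.elim]; linarith
    · exact ht
    · simp only [Finset.some_mem_insertNone] at ho
      exact mul_nonneg (hu i).1 (hσ i ho)
  · rcases o with _ | _ | i
    · exact hy
    · exact hp
    · simp only [Finset.some_mem_insertNone] at ho
      exact he i ho

/-- Leaving out some sides moves a box point by at most their total length times the diameter. -/
theorem norm_boxPt_sub_le {ι : Type v} {y p : X} {e : ι → X} {σ : ι → ℝ} {D : ℝ} {t : ℝ}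
    {u : ι → ℝ} {s s' : Finset ι} (hs : s' ⊆ s) (hσ : ∀ i ∈ s, 0 ≤ σ i)
    (he : ∀ i ∈ s, ‖e i - y‖ ≤ D) (hu : ∀ i, 0 ≤ u i ∧ u i ≤ 1) [DecidableEq ι] :
    ‖boxPt y p e σ t s u - boxPt y p e σ t s' u‖ ≤ (∑ i ∈ s \ s', σ i) * D := by
  have h : boxPt y p e σ t s u - boxPt y p e σ t s' u =
      ∑ i ∈ s \ s', (u i * σ i) • (e i - y) := by
    simp only [boxPt]
    rw [← Finset.sum_sdiff hs]
    abel
  rw [h, Finset.sum_mul]
  refine (norm_sum_le _ _).trans (Finset.sum_le_sum fun i hi => ?_)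
  have hi' := (Finset.mem_sdiff.1 hi).1
  rw [norm_smul_of_nonneg (mul_nonneg (hu i).1 (hσ i hi'))]
  exact mul_le_mul (mul_le_of_le_one_left (hσ i hi') (hu i).2) (he i hi') (norm_nonneg _)
    (hσ i hi')

omit [NormedSpace ℝ X] in
/-- A compact subset of `K` is covered up to `π` by an initial segment of a dense sequence. -/
theorem exists_cover {C : Set X} (hC : IsCompact C) (hCK : C ⊆ K) {d : ℕ → X}
    (hd : ∀ q ∈ K, ∀ ε > 0, ∃ i, ‖q - d i‖ < ε) {π : ℝ} (hπ : 0 < π) :
    ∃ M : ℕ, ∀ p ∈ C, ∃ i < M, ‖p - d i‖ ≤ π := by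
  obtain ⟨F, hF⟩ := hC.elim_finite_subcover (fun i => ball (d i) π) (fun i => isOpen_ball)
    (fun p hp => by
      obtain ⟨i, h⟩ := hd p (hCK hp) π hπ
      exact mem_iUnion.2 ⟨i, by rwa [mem_ball, dist_eq_norm]⟩)
  refine ⟨F.sup id + 1, fun p hp => ?_⟩
  obtain ⟨i, hi, h⟩ := mem_iUnion₂.1 (hF hp)
  rw [mem_ball, dist_eq_norm] at h
  exact ⟨i, Nat.lt_succ_of_le (Finset.le_sup (f := id) hi), h.le⟩

/-- The total room of a level. -/
noncomputable def room (a : ℕ) : ℝ := 1 / 2 ^ (a + 9)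

lemma room_pos (a : ℕ) : 0 < room a := by unfold room; positivity

lemma room_le (a : ℕ) : room a ≤ 1 / 2 ^ 9 := by
  unfold room
  exact one_div_le_one_div_of_le (by positivity) (pow_le_pow_right₀ one_le_two (by omega))

/-- The fixed radius of the dense direction `i` at level `a`. -/
noncomputable def rad (a i : ℕ) : ℝ := room a / 2 ^ (i + 2)

lemma rad_pos (a i : ℕ) : 0 < rad a i := div_pos (room_pos a) (by positivity)

lemma rad_anti (a : ℕ) {i j : ℕ} (h : i ≤ j) : rad a j ≤ rad a i :=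
  div_le_div_of_nonneg_left (room_pos a).le (by positivity)
    (pow_le_pow_right₀ one_le_two (by omega))

lemma sum_rad_le (a : ℕ) {I : ℕ} {s : Finset ℕ} (hI : ∀ i ∈ s, I ≤ i) :
    ∑ i ∈ s, rad a i ≤ room a / 2 ^ (I + 1) := by
  have hsub : s ⊆ (Finset.range (s.sup id + 1)).map (addLeftEmbedding I) := by
    intro i hi
    refine Finset.mem_map.2 ⟨i - I, Finset.mem_range.2 ?_, ?_⟩
    · have := Finset.le_sup (f := id) hi
      simp only [id] at this
      omega
    · simp only [addLeftEmbedding_apply]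
      have := hI i hi
      omega
  refine (Finset.sum_le_sum_of_subset_of_nonneg hsub fun i _ _ => (rad_pos a i).le).trans ?_
  rw [Finset.sum_map]
  have h : ∀ M : ℕ, ∑ j ∈ Finset.range M, rad a (I + j) =
      room a / 2 ^ (I + 1) - room a / 2 ^ (I + 1 + M) := by
    intro M
    induction M with
    | zero => simp
    | succ M ih =>
      rw [Finset.sum_range_succ, ih, rad, show I + 1 + (M + 1) = I + M + 2 by ring,
        show I + 1 + M = I + M + 1 by ring, show I + M + 2 = I + M + 1 + 1 by ring,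
        pow_succ (2 : ℝ) (I + M + 1)]
      ring
  simp only [addLeftEmbedding_apply]
  rw [h]
  linarith [div_nonneg (room_pos a).le (pow_nonneg (two_pos (α := ℝ)).le (I + 1 + (s.sup id + 1)))]

/-- What has been chosen before a stage: points, maps with their constants, room left per level,
and the slot radii of earlier stages. -/
structure St (X : Type u) [NormedAddCommGroup X] [NormedSpace ℝ X] where
  x : ℕ → X
  f : ℕ → X → X
  C : ℕ → ℝ
  G : ℕ → StrongDual ℝ X
  rem : ℕ → ℝ
  ρ : ℕ → ℕ → ℝ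

/-- The radii at level `a`: dense directions, and slots of the points `m > a`. -/
noncomputable def sig (ρ : ℕ → ℕ → ℝ) (a : ℕ) : ℕ ⊕ ℕ → ℝ :=
  Sum.elim (rad a) fun m => if a < m then ρ m a else 0

/-- The numbers of stage `n` at level `a`: a functional killing `d i - y`, `i < N a`, up to `τ a`
below level `a` does so up to `τ (a+1)` for `i < N (a+1)` above it. -/
structure LvStep (D : ℝ) (d : ℕ → X) (y : X) (st : St X) (n a : ℕ) (τ : ℕ → ℝ) (N : ℕ → ℕ)
    (ρ R : ℕ → ℝ) : Prop where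
  tau_pos : 0 < τ a
  tau_le : τ a ≤ τ (a + 1)
  N_le : N (a + 1) ≤ N a
  rho_pos : 0 < ρ a
  R_pos : 0 < R a
  fits : ρ a + R a ≤ st.rem a
  kill : ∀ i < N (a + 1), 6 * τ a + 2 * (ρ a + R a) * D ≤ τ (a + 1) * rad a i
  keep : 5 * τ a + R a * D ≤ τ (a + 1) * ρ a
  cover : ∀ b, a < b → b < n → ∀ (t : ℝ) (s : Finset (ℕ ⊕ ℕ)) (u : ℕ ⊕ ℕ → ℝ), 0 ≤ t →
    t ≤ 1 - room a → (∀ j, 0 ≤ u j ∧ u j ≤ 1) → (∀ m, Sum.inr m ∈ s → m < n) →
    ∃ i < N a, ‖st.f a (boxPt y (st.x b) (Sum.elim d st.x) (sig st.ρ a) t s u) - d i‖ ≤ 2 * τ a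

/-- Valid states at stage `n`. -/
structure Valid (B : Base T K) (st : St X) (n : ℕ) : Prop where
  xK : ∀ a < n, st.x a ∈ K
  maps : ∀ a < n, MapsTo (st.f a) K K
  lip : ∀ a < n, ∀ z ∈ K, ∀ w ∈ K, ‖st.f a z - st.f a w‖ ≤ ‖z - w‖
  fix : ∀ a < n, ∀ z ∈ K, ∀ q ∈ K, ‖st.f a z - q‖ ≤ ‖z - q‖ + st.C a * ‖T q - q‖
  C_nonneg : ∀ a < n, 0 ≤ st.C a
  rem_pos : ∀ a < n, 0 < st.rem a
  slot_nonneg : ∀ a m, a < m → m < n → 0 ≤ st.ρ m a
  total : ∀ a < n, ∑ m ∈ Finset.Ioo a n, st.ρ m a + st.rem a ≤ room a / 2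

theorem Valid.sig_nonneg {B : Base T K} {st : St X} {n : ℕ} (h : Valid B st n) {a : ℕ}
    {i : ℕ ⊕ ℕ} (hi : ∀ m, i = Sum.inr m → m < n) : 0 ≤ sig st.ρ a i := by
  rcases i with j | m
  · exact (rad_pos a j).le
  · simp only [sig, Sum.elim_inr]
    split_ifs with ham
    exacts [h.slot_nonneg a m ham (hi m rfl), le_rfl]

theorem Valid.sum_sig_le {B : Base T K} {st : St X} {n : ℕ} (h : Valid B st n) {a : ℕ}
    (ha : a < n) {s : Finset (ℕ ⊕ ℕ)} (hs : ∀ m, Sum.inr m ∈ s → m < n) :
    ∑ i ∈ s, sig st.ρ a i ≤ room a := by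
  rw [← Finset.toLeft_disjSum_toRight (u := s), Finset.sum_disjSum]
  simp only [sig, Sum.elim_inl, Sum.elim_inr]
  have h1 := sum_rad_le a (I := 0) (s := s.toLeft) fun i _ => Nat.zero_le i
  rw [zero_add, pow_one] at h1
  have h2 : ∑ m ∈ s.toRight, (if a < m then st.ρ m a else 0) ≤ ∑ m ∈ Finset.Ioo a n, st.ρ m a := by
    rw [← Finset.sum_filter]
    refine Finset.sum_le_sum_of_subset_of_nonneg (fun m hm => ?_) fun m hm _ => ?_
    · rw [Finset.mem_filter, Finset.mem_toRight] at hm
      exact Finset.mem_Ioo.2 ⟨hm.2, hs m hm.1⟩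
    · exact h.slot_nonneg a m (Finset.mem_Ioo.1 hm).1 (Finset.mem_Ioo.1 hm).2
  linarith [h.total a ha, h.rem_pos a ha]

theorem exists_levels (B : Base T K) {st : St X} {n : ℕ} (hst : Valid B st n) {η : ℝ}
    (hη : 0 < η) :
    ∀ j ≤ n, ∃ τ : ℕ → ℝ, ∃ N : ℕ → ℕ, ∃ ρ R : ℕ → ℝ, τ n = η ∧ N n = n ∧ 0 < τ (n - j) ∧
      ∀ a, n - j ≤ a → a < n → LvStep (diam K) B.d B.y st n a τ N ρ R := by
  intro j
  induction j with
  | zero => exact fun _ => ⟨fun _ => η, fun _ => n, fun _ => 1, fun _ => 1, rfl, rfl, hη,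
      fun a h1 h2 => absurd h2 (by omega)⟩
  | succ j ih =>
    intro hj
    obtain ⟨τ, N, ρ, R, hτn, hNn, hτp, hall⟩ := ih (by omega)
    set a := n - (j + 1) with ha
    have ha1 : n - j = a + 1 := by omega
    rw [ha1] at hτp hall
    have han : a < n := by omega
    set D := diam K with hD
    have hD0 : 0 ≤ D := diam_nonneg
    have hrem := hst.rem_pos a han
    set s₀ := rad a (N (a + 1)) with hs₀
    have hs₀p : 0 < s₀ := rad_pos _ _
    set ρ₀ := min (st.rem a / 2) (τ (a + 1) * s₀ / (8 * (D + 1))) with hρ₀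
    have hρ₀p : 0 < ρ₀ := lt_min (by linarith) (by positivity)
    set R₀ := min ρ₀ (τ (a + 1) * ρ₀ / (8 * (D + 1))) with hR₀
    have hR₀p : 0 < R₀ := lt_min hρ₀p (by positivity)
    set τ₀ := min (τ (a + 1)) (min (τ (a + 1) * ρ₀ / 8) (τ (a + 1) * s₀ / 24)) with hτ₀
    have hτ₀p : 0 < τ₀ := lt_min hτp (lt_min (by positivity) (by positivity))
    obtain ⟨I, hI⟩ := exists_pow_lt_of_lt_one (show (0 : ℝ) < τ₀ / (D + 1) by positivity)
      (show (1 / 2 : ℝ) < 1 by norm_num)
    classical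
    set W : Finset (ℕ ⊕ ℕ) := (Finset.range I).disjSum (Finset.Ioo a n) with hW
    have hWm : ∀ m, Sum.inr m ∈ W → m < n := fun m hm => by
      rw [hW, Finset.inr_mem_disjSum] at hm; exact (Finset.mem_Ioo.1 hm).2
    set cube := Icc (0 : ℝ) (1 - room a) ×ˢ Set.pi univ (fun _ : ℕ ⊕ ℕ => Icc (0 : ℝ) 1) with hcube
    have heK : ∀ i, (∀ m, i = Sum.inr m → m < n) → Sum.elim B.d st.x i ∈ K := fun i hi => by
      rcases i with i | m
      exacts [B.d_mem i, hst.xK m (hi m rfl)]
    have hbox : ∀ b < n, ∀ (t : ℝ) (s : Finset (ℕ ⊕ ℕ)) (u : ℕ ⊕ ℕ → ℝ), 0 ≤ t →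
        t ≤ 1 - room a → (∀ j, 0 ≤ u j ∧ u j ≤ 1) → (∀ m, Sum.inr m ∈ s → m < n) →
        boxPt B.y (st.x b) (Sum.elim B.d st.x) (sig st.ρ a) t s u ∈ K := fun b hb t s u h1 h2 hu hs =>
      boxPt_mem B.good.convex B.y_mem (hst.xK b hb) (fun i hi => heK i fun m e => hs m (e ▸ hi))
        (fun i hi => hst.sig_nonneg fun m e => hs m (e ▸ hi)) (hst.sum_sig_le han hs) h1 h2 hu
    set Cs : Set X := ⋃ b ∈ Finset.Ioo a n, (fun q : ℝ × (ℕ ⊕ ℕ → ℝ) =>
      st.f a (boxPt B.y (st.x b) (Sum.elim B.d st.x) (sig st.ρ a) q.1 W q.2)) '' cube with hCs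
    have hcubeK : ∀ b ∈ Finset.Ioo a n, MapsTo (fun q : ℝ × (ℕ ⊕ ℕ → ℝ) =>
        boxPt B.y (st.x b) (Sum.elim B.d st.x) (sig st.ρ a) q.1 W q.2) cube K :=
      fun b hb q hq => hbox b (Finset.mem_Ioo.1 hb).2 _ _ _ hq.1.1 hq.1.2
        (fun j => hq.2 j (mem_univ j)) hWm
    have hC : IsCompact Cs := by
      refine Finset.isCompact_biUnion _ fun b hb => ?_
      refine IsCompact.image_of_continuousOn
        (isCompact_Icc.prod (isCompact_univ_pi fun _ => isCompact_Icc)) ?_
      have hcont : ContinuousOn (st.f a) K :=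
        (LipschitzOnWith.of_dist_le_mul (K := 1) fun p hp q hq => by
          simpa [dist_eq_norm] using hst.lip a han p hp q hq).continuousOn
      refine hcont.comp ?_ (hcubeK b hb)
      apply Continuous.continuousOn
      unfold boxPt
      fun_prop
    have hCK : Cs ⊆ K := iUnion₂_subset fun b hb => by
      rintro _ ⟨q, hq, rfl⟩
      exact hst.maps a han (hcubeK b hb hq)
    obtain ⟨M, hM⟩ := exists_cover hC hCK B.dense hτ₀p
    have up : ∀ {β : Type} (g : ℕ → β) (v : β) {b : ℕ}, a + 1 ≤ b →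
        Function.update g a v b = g b := fun g v b hb => Function.update_of_ne (by omega) v g
    refine ⟨Function.update τ a τ₀, Function.update N a (max (N (a + 1)) M),
      Function.update ρ a ρ₀, Function.update R a R₀, ?_, ?_, ?_, ?_⟩
    · rw [up τ _ (by omega)]; exact hτn
    · rw [up N _ (by omega)]; exact hNn
    · rw [Function.update_self]; exact hτ₀p
    intro b hab hbn
    rcases eq_or_lt_of_le hab with rfl | hlt
    · have e1 : τ₀ ≤ τ (a + 1) * ρ₀ / 8 := (min_le_right _ _).trans (min_le_left _ _)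
      have e2 : τ₀ ≤ τ (a + 1) * s₀ / 24 := (min_le_right _ _).trans (min_le_right _ _)
      have e3 : ρ₀ * D ≤ τ (a + 1) * s₀ / 8 := by
        have h := (min_le_right _ _ : ρ₀ ≤ τ (a + 1) * s₀ / (8 * (D + 1)))
        rw [le_div_iff₀ (by linarith)] at h
        nlinarith
      have e4 : R₀ * D ≤ τ (a + 1) * ρ₀ / 8 := by
        have h := (min_le_right _ _ : R₀ ≤ τ (a + 1) * ρ₀ / (8 * (D + 1)))
        rw [le_div_iff₀ (by linarith)] at h
        nlinarith
      have e5 : R₀ * D ≤ ρ₀ * D := mul_le_mul_of_nonneg_right (min_le_left _ _) hD0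
      constructor <;> simp only [Function.update_self, up τ _ le_rfl, up N _ le_rfl]
      · exact hτ₀p
      · exact min_le_left _ _
      · exact le_max_left _ _
      · exact hρ₀p
      · exact hR₀p
      · linarith [(min_le_left _ _ : ρ₀ ≤ st.rem a / 2), (min_le_left _ _ : R₀ ≤ ρ₀)]
      · intro i hi
        have h1 : s₀ ≤ rad a i := rad_anti a hi.le
        nlinarith [mul_le_mul_of_nonneg_left h1 hτp.le, mul_pos hτp hs₀p]
      · linarith [mul_pos hτp hρ₀p]
      · intro b hb1 hb2 t s u ht1 ht2 hu hs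
        have hsW : s ∩ W ⊆ s := Finset.inter_subset_left
        have htail : ∑ i ∈ s \ (s ∩ W), sig st.ρ a i ≤ room a / 2 ^ (I + 1) := by
          rw [← Finset.toLeft_disjSum_toRight (u := s \ (s ∩ W)), Finset.sum_disjSum]
          have h1 : ∑ m ∈ (s \ (s ∩ W)).toRight, sig st.ρ a (Sum.inr m) = 0 := by
            refine Finset.sum_eq_zero fun m hm => ?_
            simp only [Finset.mem_toRight, Finset.mem_sdiff, Finset.mem_inter, hW,
              Finset.inr_mem_disjSum, Finset.mem_Ioo, not_and] at hm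
            have : ¬ a < m := fun h => hm.2 hm.1 h (hs m hm.1)
            simp [sig, this]
          rw [h1, add_zero]
          refine sum_rad_le a fun i hi => ?_
          simp only [Finset.mem_toLeft, Finset.mem_sdiff, Finset.mem_inter, hW,
            Finset.inl_mem_disjSum, Finset.mem_range, not_and] at hi
          exact le_of_not_gt (hi.2 hi.1)
        have hdrop := norm_boxPt_sub_le (p := st.x b) (t := t) (D := D) (u := u) hsW
          (fun i hi => hst.sig_nonneg (a := a) fun m e => hs m (e ▸ hi))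
          (fun i hi => norm_sub_le_diam B.good.bdd (heK i fun m e => hs m (e ▸ hi)) B.y_mem) hu
        set u' : ℕ ⊕ ℕ → ℝ := fun i => if i ∈ s then u i else 0 with hu'
        have hu'1 : ∀ j, 0 ≤ u' j ∧ u' j ≤ 1 := fun j => by
          simp only [hu']; split_ifs
          exacts [hu j, ⟨le_rfl, zero_le_one⟩]
        have heq : boxPt B.y (st.x b) (Sum.elim B.d st.x) (sig st.ρ a) t W u' =
            boxPt B.y (st.x b) (Sum.elim B.d st.x) (sig st.ρ a) t (s ∩ W) u := by
          simp only [boxPt]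
          congr 1
          rw [← Finset.sum_subset (Finset.inter_subset_right : s ∩ W ⊆ W) fun i hi hni => by
            have : i ∉ s := fun h => hni (Finset.mem_inter.2 ⟨h, hi⟩)
            simp [hu', this]]
          exact Finset.sum_congr rfl fun i hi => by simp [hu', (Finset.mem_inter.1 hi).1]
        obtain ⟨i, hi, h⟩ := hM _ (mem_iUnion₂.2 ⟨b, Finset.mem_Ioo.2 ⟨hb1, hb2⟩, (t, u'),
          ⟨⟨ht1, ht2⟩, fun j _ => hu'1 j⟩, rfl⟩)
        refine ⟨i, hi.trans_le (le_max_right _ _), ?_⟩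
        simp only [heq] at h
        have hlip := (hst.lip a han _ (hbox b hb2 t s u ht1 ht2 hu hs) _
          (hbox b hb2 t (s ∩ W) u ht1 ht2 hu fun m hm => hs m (hsW hm))).trans
          (hdrop.trans (mul_le_mul_of_nonneg_right htail hD0))
        have hsmall : room a / 2 ^ (I + 1) * D ≤ τ₀ := by
          rw [lt_div_iff₀ (by linarith), one_div, inv_pow] at hI
          have h2 : (2 : ℝ) ^ I ≤ 2 ^ (I + 1) := pow_le_pow_right₀ one_le_two (Nat.le_succ I)
          have h3 : room a / 2 ^ (I + 1) ≤ ((2 : ℝ) ^ I)⁻¹ := by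
            rw [inv_eq_one_div]
            exact div_le_div₀ zero_le_one ((room_le a).trans (by norm_num)) (by positivity) h2
          nlinarith [inv_nonneg.2 (pow_nonneg (two_pos (α := ℝ)).le I)]
        have := norm_sub_le_norm_sub_add_norm_sub
          (st.f a (boxPt B.y (st.x b) (Sum.elim B.d st.x) (sig st.ρ a) t s u))
          (st.f a (boxPt B.y (st.x b) (Sum.elim B.d st.x) (sig st.ρ a) t (s ∩ W) u)) (B.d i)
        linarith
    · obtain ⟨q1, q2, q3, q4, q5, q6, q7, q8, q9⟩ := hall b (by omega) hbn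
      have hb' : a + 1 ≤ b := by omega
      constructor <;>
        simp only [up τ _ hb', up τ _ (show a + 1 ≤ b + 1 by omega), up N _ hb',
          up N _ (show a + 1 ≤ b + 1 by omega), up ρ _ hb', up R _ hb'] <;>
        assumption

/-- Precision at the top of stage `n`. -/
noncomputable def top (K : Set X) (n : ℕ) : ℝ := diam K / 2 ^ (n + 9)

/-- Everything stage `n` records. -/
structure Stepped (B : Base T K) (n : ℕ) (st st' : St X) (τ : ℕ → ℝ) (N : ℕ → ℕ)
    (R : ℕ → ℝ) : Prop where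
  tau_n : τ n = top K n
  tau_pos : 0 < τ 0
  N_n : N n = n
  step : ∀ a < n, LvStep (diam K) B.d B.y st n a τ N (st'.ρ n) R
  valid : Valid B st' (n + 1)
  keep : ∀ a < n, st'.x a = st.x a ∧ st'.f a = st.f a ∧ st'.C a = st.C a ∧ st'.G a = st.G a ∧
    st'.rem a = R a ∧ ∀ m, st'.ρ a m = st.ρ a m
  defect : ∀ a < n, st.C a * ‖T (st'.x n) - st'.x n‖ ≤ τ 0
  near : ‖st'.f n B.y - st'.x n‖ ≤ top K n
  weak : ∀ i ≤ n, |B.ψ i (st'.x n - B.y)| ≤ 1 / ((n : ℝ) + 1)
  G_norm : ‖st'.G n‖ ≤ 1
  G_big : diam K - τ 0 ≤ st'.G n (st'.x n - B.y)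
  G_kill : ∀ i < N 0, |st'.G n (B.d i - B.y)| ≤ τ 0

theorem exists_step (B : Base T K) {st : St X} {n : ℕ} (hst : Valid B st n) :
    ∃ st' : St X, ∃ τ : ℕ → ℝ, ∃ N : ℕ → ℕ, ∃ R : ℕ → ℝ, Stepped B n st st' τ N R := by
  classical
  obtain ⟨τ, N, ρ, R, hτn, hNn, hτ0, hall⟩ :=
    exists_levels B hst (η := top K n) (div_pos B.diam_pos (by positivity)) n le_rfl
  rw [Nat.sub_self] at hτ0 hall
  obtain ⟨δ, hδ, hkill⟩ := B.kill ((Finset.range (N 0)).image B.d)
    (fun q hq => by
      obtain ⟨i, -, rfl⟩ := Finset.mem_image.1 hq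
      exact B.d_mem i) (τ 0) hτ0
  set Cc := ∑ a ∈ Finset.range n, st.C a + 1 with hCc
  have hC0 : 0 < Cc := by
    have : 0 ≤ ∑ a ∈ Finset.range n, st.C a :=
      Finset.sum_nonneg fun a ha => hst.C_nonneg a (Finset.mem_range.1 ha)
    linarith
  obtain ⟨x, hxK, hxd, hxw⟩ := B.cand (min δ (τ 0 / Cc)) (lt_min hδ (by positivity))
    ((Finset.range (n + 1)).image B.ψ) (1 / ((n : ℝ) + 1)) (by positivity)
  obtain ⟨G, hG1, hG2, hG3⟩ := hkill x hxK (hxd.trans_le (min_le_left _ _))
  obtain ⟨f, Cf, hCf, hfm, hfl, hfy, hff⟩ :=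
    B.orbit x hxK (top K n) (div_pos B.diam_pos (by positivity))
  refine ⟨⟨Function.update st.x n x, Function.update st.f n f, Function.update st.C n Cf,
    Function.update st.G n G, fun a => if a < n then R a else room a / 2,
    Function.update st.ρ n ρ⟩, τ, N, R, ?_⟩
  constructor
  · exact hτn
  · exact hτ0
  · exact hNn
  · intro a ha; simp only [Function.update_self]; exact hall a (Nat.zero_le a) ha
  · constructor
    iterate 5
      intro a ha
      rcases Nat.lt_succ_iff_lt_or_eq.1 ha with h | rfl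
      · simp only [Function.update_of_ne h.ne]
        first
          | exact hst.xK a h
          | exact hst.maps a h
          | exact hst.lip a h
          | exact hst.fix a h
          | exact hst.C_nonneg a h
      · simp only [Function.update_self]
        first
          | exact hxK
          | exact hfm
          | exact hfl
          | exact hff
          | exact hCf
    · intro a ha
      dsimp only
      split_ifs with h
      exacts [(hall a (Nat.zero_le a) h).R_pos, half_pos (room_pos a)]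
    · intro a m ham hm
      rcases Nat.lt_succ_iff_lt_or_eq.1 hm with h | rfl
      · simp only [Function.update_of_ne h.ne]; exact hst.slot_nonneg a m ham h
      · simp only [Function.update_self]; exact (hall a (Nat.zero_le a) ham).rho_pos.le
    · intro a ha
      rcases Nat.lt_succ_iff_lt_or_eq.1 ha with h | rfl
      · simp only [if_pos h]
        rw [show Finset.Ioo a (n + 1) = insert n (Finset.Ioo a n) by
            ext m; simp only [Finset.mem_Ioo, Finset.mem_insert]; omega,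
          Finset.sum_insert (by simp), Function.update_self,
          Finset.sum_congr rfl fun m hm => by
            rw [Function.update_of_ne (Finset.mem_Ioo.1 hm).2.ne]]
        linarith [(hall a (Nat.zero_le a) h).fits, hst.total a h]
      · simp [show Finset.Ioo a (a + 1) = (∅ : Finset ℕ) by
          ext m; simp only [Finset.mem_Ioo]; simp]
  · intro a ha
    refine ⟨Function.update_of_ne ha.ne _ _, Function.update_of_ne ha.ne _ _,
      Function.update_of_ne ha.ne _ _, Function.update_of_ne ha.ne _ _, if_pos ha, fun m => ?_⟩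
    simp only [Function.update_of_ne ha.ne]
  · intro a ha
    simp only [Function.update_self]
    have h1 := hxd.trans_le (min_le_right _ _)
    rw [lt_div_iff₀ hC0] at h1
    have h2 : st.C a ≤ Cc := by
      have := Finset.single_le_sum (f := st.C)
        (fun b hb => hst.C_nonneg b (Finset.mem_range.1 hb)) (Finset.mem_range.2 ha)
      linarith
    nlinarith [norm_nonneg (T x - x)]
  · simp only [Function.update_self]; exact hfy.le
  · intro i hi
    simp only [Function.update_self]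
    exact (hxw _ (Finset.mem_image_of_mem _ (Finset.mem_range.2 (Nat.lt_succ_of_le hi)))).le
  · simp only [Function.update_self]; exact hG1
  · simp only [Function.update_self]; exact hG2
  · intro i hi
    simp only [Function.update_self]
    exact hG3 _ (Finset.mem_image_of_mem _ (Finset.mem_range.2 hi))

/-- A finished construction. -/
structure Data (B : Base T K) where
  x : ℕ → X
  f : ℕ → X → X
  C : ℕ → ℝ
  G : ℕ → StrongDual ℝ X
  ρ : ℕ → ℕ → ℝ
  τ : ℕ → ℕ → ℝ
  N : ℕ → ℕ → ℕ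
  R : ℕ → ℕ → ℝ
  xK : ∀ n, x n ∈ K
  maps : ∀ n, MapsTo (f n) K K
  lip : ∀ n, ∀ z ∈ K, ∀ w ∈ K, ‖f n z - f n w‖ ≤ ‖z - w‖
  fix : ∀ n, ∀ z ∈ K, ∀ q ∈ K, ‖f n z - q‖ ≤ ‖z - q‖ + C n * ‖T q - q‖
  sig_nonneg : ∀ a i, 0 ≤ sig ρ a i
  total : ∀ a (s : Finset (ℕ ⊕ ℕ)), ∑ i ∈ s, sig ρ a i ≤ room a
  tail : ∀ n a, a < n → ∀ s : Finset ℕ, (∀ m ∈ s, n < m) → ∑ m ∈ s, ρ m a ≤ R n a
  defect : ∀ n a, a < n → C a * ‖T (x n) - x n‖ ≤ τ n 0
  near : ∀ n, ‖f n B.y - x n‖ ≤ top K n
  weak : ∀ n, ∀ i ≤ n, |B.ψ i (x n - B.y)| ≤ 1 / ((n : ℝ) + 1)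
  G_norm : ∀ n, ‖G n‖ ≤ 1
  G_big : ∀ n, diam K - τ n 0 ≤ G n (x n - B.y)
  G_kill : ∀ n, ∀ i < N n 0, |G n (B.d i - B.y)| ≤ τ n 0
  tau_top : ∀ n, τ n n = top K n
  N_top : ∀ n, N n n = n
  step : ∀ n a, a < n → LvStep (diam K) B.d B.y ⟨x, f, C, G, fun b => ρ n b + R n b, ρ⟩ n a
    (τ n) (N n) (ρ n) (R n)

theorem exists_data (B : Base T K) : Nonempty (Data B) := by
  classical
  have h0 : Valid B ⟨fun _ => B.y, fun _ z => z, fun _ => 0, fun _ => 0, fun _ => 1,
      fun _ _ => 0⟩ 0 := by constructor <;> intros <;> omega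
  choose! next τ N R hnext using fun (n : ℕ) (st : St X) (h : Valid B st n) => exists_step B h
  let seq : ℕ → St X := fun n => Nat.rec
    ⟨fun _ => B.y, fun _ z => z, fun _ => 0, fun _ => 0, fun _ => 1, fun _ _ => 0⟩
    (fun k st => next k st) n
  have hv : ∀ n, Valid B (seq n) n := by
    intro n
    induction n with
    | zero => exact h0
    | succ n ih => exact (hnext n (seq n) ih).valid
  have hs : ∀ n, Stepped B n (seq n) (seq (n + 1)) (τ n (seq n)) (N n (seq n)) (R n (seq n)) :=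
    fun n => hnext n (seq n) (hv n)
  have hkeep : ∀ n a, a < n → (seq n).x a = (seq (a + 1)).x a ∧ (seq n).f a = (seq (a + 1)).f a ∧
      (seq n).C a = (seq (a + 1)).C a ∧ ∀ m, (seq n).ρ a m = (seq (a + 1)).ρ a m := by
    intro n a han
    induction n, (show a + 1 ≤ n by omega) using Nat.le_induction with
    | base => exact ⟨rfl, rfl, rfl, fun _ => rfl⟩
    | succ n hn ih =>
      obtain ⟨e1, e2, e3, -, -, e6⟩ := (hs n).keep a (by omega)
      obtain ⟨f1, f2, f3, f4⟩ := ih (by omega)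
      exact ⟨e1.trans f1, e2.trans f2, e3.trans f3, fun m => (e6 m).trans (f4 m)⟩
  set x : ℕ → X := fun n => (seq (n + 1)).x n with hx
  set f : ℕ → X → X := fun n => (seq (n + 1)).f n with hf
  set C : ℕ → ℝ := fun n => (seq (n + 1)).C n with hC
  set ρ : ℕ → ℕ → ℝ := fun m a => (seq (m + 1)).ρ m a with hρ
  have vx : ∀ n a, a < n → (seq n).x a = x a := fun n a h => (hkeep n a h).1
  have vf : ∀ n a, a < n → (seq n).f a = f a := fun n a h => (hkeep n a h).2.1
  have vC : ∀ n a, a < n → (seq n).C a = C a := fun n a h => (hkeep n a h).2.2.1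
  have vρ : ∀ n m a, m < n → (seq n).ρ m a = ρ m a := fun n m a h => (hkeep n m h).2.2.2 a
  have sig_eq : ∀ n a (i : ℕ ⊕ ℕ), (∀ m, i = Sum.inr m → m < n) →
      sig (seq n).ρ a i = sig ρ a i := by
    intro n a i hi
    rcases i with i | m
    · rfl
    · simp only [sig, Sum.elim_inr, vρ n m a (hi m rfl)]
  have hpos : ∀ m a, a < m → 0 < ρ m a := fun m a h => ((hs m).step a h).rho_pos
  -- every later slot fits in the room left after stage `n`
  have htail : ∀ n a, a < n → ∀ k,
      ∑ m ∈ Finset.Ioc n (n + k), ρ m a + (seq (n + k + 1)).rem a ≤ R n (seq n) a := by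
    intro n a ha k
    induction k with
    | zero => simp [((hs n).keep a ha).2.2.2.2.1]
    | succ k ih =>
      rw [show n + (k + 1) = n + k + 1 by omega, Finset.sum_Ioc_succ_top (by omega),
        ((hs (n + k + 1)).keep a (by omega)).2.2.2.2.1]
      have h1 := ((hs (n + k + 1)).step a (by omega)).fits
      change ∑ m ∈ Finset.Ioc n (n + k), ρ m a +
        (seq (n + k + 1 + 1)).ρ (n + k + 1) a + _ ≤ _
      linarith
  refine ⟨⟨x, f, C, fun n => (seq (n + 1)).G n, ρ, fun n => τ n (seq n), fun n => N n (seq n),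
    fun n => R n (seq n), fun n => (hv (n + 1)).xK n (Nat.lt_succ_self n),
    fun n => (hv (n + 1)).maps n (Nat.lt_succ_self n),
    fun n => (hv (n + 1)).lip n (Nat.lt_succ_self n),
    fun n => (hv (n + 1)).fix n (Nat.lt_succ_self n), ?_, ?_, ?_, ?_, fun n => (hs n).near,
    fun n => (hs n).weak, fun n => (hs n).G_norm, fun n => (hs n).G_big, fun n => (hs n).G_kill,
    fun n => (hs n).tau_n, fun n => (hs n).N_n, ?_⟩⟩
  · intro a i
    rcases i with i | m
    · exact (rad_pos a i).le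
    · simp only [sig, Sum.elim_inr]
      split_ifs with ham
      exacts [(hpos m a ham).le, le_rfl]
  · intro a s
    set M := max a (s.toRight.sup id) + 1 with hM
    have hlt : ∀ m, Sum.inr m ∈ s → m < M := fun m hm => by
      have := Finset.le_sup (f := id) (Finset.mem_toRight.2 hm)
      simp only [id] at this
      omega
    rw [Finset.sum_congr rfl fun i hi => (sig_eq M a i fun m e => hlt m (e ▸ hi)).symm]
    exact (hv M).sum_sig_le (by omega) hlt
  · intro n a ha s hs'
    have hsub : s ⊆ Finset.Ioc n (n + s.sup id) := fun m hm => Finset.mem_Ioc.2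
      ⟨hs' m hm, by have := Finset.le_sup (f := id) hm; simp only [id] at this; omega⟩
    refine (Finset.sum_le_sum_of_subset_of_nonneg hsub fun m hm _ => ?_).trans ?_
    · exact (hpos m a (ha.trans (Finset.mem_Ioc.1 hm).1)).le
    · have := htail n a ha (s.sup id)
      linarith [(hv (n + s.sup id + 1)).rem_pos a (by omega)]
  · intro n a ha
    rw [← vC n a ha]; exact (hs n).defect a ha
  · intro n a ha
    obtain ⟨q1, q2, q3, q4, q5, q6, q7, q8, q9⟩ := (hs n).step a ha
    refine ⟨q1, q2, q3, q4, q5, le_rfl, q7, q8, fun b hb1 hb2 t s u h1 h2 hu hsm => ?_⟩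
    obtain ⟨i, hi, h⟩ := q9 b hb1 hb2 t s u h1 h2 hu hsm
    refine ⟨i, hi, ?_⟩
    rw [vf n a ha, vx n b hb2] at h
    have e : boxPt B.y (x b) (Sum.elim B.d x) (sig ρ a) t s u =
        boxPt B.y (x b) (Sum.elim B.d (seq n).x) (sig (seq n).ρ a) t s u := by
      simp only [boxPt]
      congr 1
      refine Finset.sum_congr rfl fun j hj => ?_
      rw [sig_eq n a j fun m e => hsm m (e ▸ hj)]
      rcases j with j | m
      · rfl
      · simp only [Sum.elim_inr, vx n m (hsm m hj)]
    dsimp only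
    rw [e]; exact h

end Vale.Agent.P079.Full
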